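import Vale.Agent.P014X.Dv.St
import Vale.Agent.P014X.Fm.Pz1
import Vale.Agent.P014U.Pg.Bas

/-! # P014X, block DVO: the primitive conductor (row `EU1`, helper16) -/

set_option autoImplicit false
set_option linter.all false

open NumberField Matrix QuadraticAlgebra
open scoped Classical

noncomputable section

namespace Vale.Agent.P014X.Dv

open Vale.Agent.P022 (Qb GQ)
open Vale.Agent.P014U
open Vale.Agent.P014U.Dr (Zn)
open Vale.Agent.P014U.Kq (M2)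
open Vale.Agent.P014U.X4S.Aq (cz)

namespace Eu1

section

variable {a b : ℤ} {R : Type} [CommRing R]

theorem det1 (x : Qa a b R) (l : ℕ) : algebraMap R (Qa a b R) (mm ((l : R) • x) - (l : M2 R)).det =
    l ^ 2 * ((1 - star x) * (1 - x)) := by
  ext <;> simp [det_fin_two, mm, Matrix.natCast_apply, pow_two] <;> ring

theorem det2 (x : Qa a b R) (l : ℕ) {t : R} (h : t ^ 2 = l ^ 2) :
    algebraMap R (Qa a b R) (mm (t • x) * cm b R - (l : M2 R)).det = l ^ 2 * (1 - x * star x) := by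
  ext
  · simp [det_fin_two, mm, cm, Matrix.natCast_apply, pow_two]
    linear_combination (a * x.im ^ 2 - x.re ^ 2 - b * x.re * x.im) * h
  · simp [pow_two]
    ring

theorem qm_alg {S : Type} [CommRing S] (f : R →+* S) (r : R) :
    qm a b f (algebraMap R _ r) = algebraMap S _ (f r) := QuadraticAlgebra.ext rfl f.map_zero

end

variable [Pp] {A B : ℤ} {D : Cd A B} {k : ℕ} {C : Cr k} {a b : ℤ} {O : Type} [CommRing O]
  (p : Pe D C a b O) (j : ℕ) {l m m' : ℕ} {α : D.O}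

theorem step (ram : RAM) (hl : l ∈ p.M.primeFactors) (h2 : L2 D p.χ l) (lm : ¬ l ∣ m)
    (a1 : D.Ad pp α m) (a2 : D.Ad pp α (m * l)) (t : D.Tr m (p.χj j)) :
    ∃ w, ∀ g, l ^ 2 * D.zc α (m * l) (p.ιj j) (p.χj j) g -
      algebraMap _ _ (p.t.i j (p.P l)) * D.zc α m (p.ιj j) (p.χj j) g = (p.Φj j g - 1) * w := by
  have := Ep.dom (D := D)
  have l1 := Nat.prime_of_mem_primeFactors hl
  have ne : l ≠ pp := fun e => p.fm.cop (e ▸ Nat.dvd_of_mem_primeFactors hl)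
  have o := p.pl.ov l l1
  have f := p.pl.fb l l1
  have z : cs C (p.pl.σ l) = l := by rw [cs, Pg.cz_fb o ne f, map_natCast]
  obtain ⟨-, s1, s2⟩ := p.cf.spl l _ _ o (fun d =>
    let ⟨i, h, n⟩ := ram A B D l _ o d; n (h2 _ i o h).1) f
  have cop : IsCoprime (m : D.O) l := (l1.coprime_iff_not_dvd.2 lm).symm.cast
  rw [Pe.P, if_pos h2, ← qm_alg]
  obtain ⟨g, e | e⟩ := Pz1.two p.cf (p.pl.σ l)
  · obtain ⟨π, e1, e2, e3⟩ := s1 (e ▸ g.2)
    rw [e] at e3 z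
    obtain ⟨P', e4⟩ := Zr.Nrm.fr_cj p.cf e3 (Pz1.cg_val p.cf g ▸ (D.cg g).2)
    rw [← e1] at cop
    have n1 : ¬ π ∣ m := fun d => e3.pr.not_unit (cop.of_mul_right_left.symm.isUnit_of_dvd d)
    have n2 : ¬ star π ∣ m * π := fun d => (e4.pr.dvd_or_dvd d).elim
      (fun d => e4.pr.not_unit (cop.of_mul_right_right.symm.isUnit_of_dvd d)) fun ⟨y, d⟩ => e2 (by
        have := congrArg star d
        rw [star_mul, star_star] at this
        rw [this, map_mul]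
        exact Ideal.mul_mem_left _ _ e3.mem)
    rw [e, p.hρ, z, det1, ← p.gf.cj g]
    rw [← e1, ← mul_assoc] at a2
    have a3 : D.Ad pp α (m * π) := ⟨left_ne_zero_of_mul a2.ne, a1.dv.mul_right _,
      (mul_assoc 6 (m * π) _ ▸ a2.cop).of_mul_right_left⟩
    obtain ⟨w, hw⟩ := p.rw.odd _ α _ π _ _ e3 _ (p.ιj j) _ a3 a1 n1 t
    obtain ⟨v, hv⟩ := p.rw.odd _ α _ _ _ _ e4 _ (p.ιj j) _ a2 a3 n2 (Zr.Nrm.tr_mul p.cf t a3.ne)
    rw [show (⟨_, e4.G⟩ : D.G) = D.cg g from Subtype.ext (Pz1.cg_val p.cf g).symm, mul_assoc,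
      e1] at hv
    refine ⟨l ^ 2 * (v + (1 - p.χj j (D.cg g)) * w), fun x => ?_⟩
    simp only [map_mul, map_sub, map_pow, map_natCast, map_one]
    have h1 := hw x
    have h2 := hv x
    simp only [Pi.smul_apply, smul_eq_mul] at h1 h2
    show l ^ 2 * _ - l ^ 2 * ((1 - p.χj j (D.cg g)) * (1 - p.χj j g)) * _ = _
    linear_combination l ^ 2 * h2 + l ^ 2 * (1 - p.χj j (D.cg g)) * h1
  · have e3 := s2 fun h => Pz1.c_not p.cf ((mul_mem_cancel_left g.2).1 (e ▸ h))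
    have e4 : p.pl.σ l * p.pl.σ l = (g * D.cg g : D.G) := by
      rw [e, Subgroup.coe_mul, Pz1.cg_val p.cf, mul_assoc, mul_assoc D.c]
    have z2 : cs C g ^ 2 = l ^ 2 := by
      rw [← z, e, cs, cs, ← map_pow, ← map_pow, map_mul, Units.val_mul, mul_pow,
        ← Units.val_pow_eq_pow_val (cz D.c), ← map_pow, pow_two D.c, p.cf.c2, map_one, Units.val_one,
        mul_one]
    obtain ⟨w, hw⟩ := p.rw.odd _ α _ _ _ _ e3 _ (p.ιj j) _ a2 a1
      (fun d => e3.pr.not_unit (cop.symm.isUnit_of_dvd d)) t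
    rw [show (⟨_, e3.G⟩ : D.G) = g * D.cg g from Subtype.ext e4] at hw
    rw [e, map_mul, p.hρ, p.hc, det2 _ _ z2, ← p.gf.cj g, ← map_mul p.χ]
    refine ⟨l ^ 2 * w, fun x => ?_⟩
    simp only [map_mul (qm a b _), map_sub, map_pow, map_natCast, map_one]
    have h1 := hw x
    simp only [Pi.smul_apply, smul_eq_mul] at h1
    show l ^ 2 * _ - l ^ 2 * (1 - p.χj j (g * D.cg g)) * _ = _
    linear_combination l ^ 2 * h1

theorem pf {n : ℕ} (h : 2 ≤ n) : (p.M * pp ^ n).primeFactors = Sb p.M := by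
  rw [Nat.primeFactors_mul p.fm.ne (pow_ne_zero _ pp_ne), Nat.primeFactors_prime_pow (by omega)
    pp_prime, Finset.union_comm, ← Finset.insert_eq]

theorem ad {n : ℕ} (h : 2 ≤ n) (a1 : D.Ad pp α (D.mp p.M n)) (m0 : m ≠ 0) (d : pp ^ 2 ∣ m)
    (s : m.primeFactors ⊆ Sb p.M) : D.Ad pp α m := by
  refine ⟨Ep.nat_ne m0, by exact_mod_cast Nat.cast_dvd_cast (α := D.O) d,
    a1.cop.of_mul_right_left.mul_right ((a1.cop.of_mul_right_right.pow_right (n := m)).of_isCoprime_of_dvd_right ?_)⟩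
  exact_mod_cast Nat.cast_dvd_cast (α := D.O) ((Nat.dvd_pow_self_iff m0
    (mul_ne_zero p.fm.ne (pow_ne_zero _ pp_ne))).2 (pf p h ▸ s))

theorem dv (a1 : D.Ad pp α m) (a2 : D.Ad pp α m') (d : m ∣ m') (s : m'.primeFactors ⊆ m.primeFactors)
    (t : D.Tr m (p.χj j)) :
    D.Ch (p.Φj j) (D.zc α m' (p.ιj j) (p.χj j)) (D.zc α m (p.ιj j) (p.χj j)) :=
  p.rw.dv _ α _ _ _ _ _ a1 a2 (Nat.cast_dvd_cast d) (fun π h k => h.dvd_of_dvd_pow (n := m') (k.trans (by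
    exact_mod_cast Nat.cast_dvd_cast (α := D.O) ((Nat.dvd_pow_self_iff
      (fun e => a2.ne (by simp [e])) fun e => a1.ne (by simp [e])).2 s)))) t

/-- the primes which are removed -/
def ee (l : ℕ) : ℕ := if L2 D p.χ l then l else 1

theorem ee_ne (s : Finset ℕ) (h : s ⊆ p.σ) : ∏ l ∈ s, ee p l ≠ 0 :=
  Finset.prod_ne_zero_iff.2 fun l k => by
    have := (Nat.prime_of_mem_primeFactors (Finset.mem_filter.1 (h k)).1).ne_zero
    unfold ee
    split_ifs <;> omega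

theorem ee_dvd (s : Finset ℕ) (h : s ⊆ p.σ) (l1 : l.Prime) (d : l ∣ ∏ l ∈ s, ee p l) : l ∈ s := by
  obtain ⟨q, k, d⟩ := (Prime.dvd_finset_prod_iff l1.prime _).1 d
  unfold ee at d
  split_ifs at d
  · exact (Nat.prime_dvd_prime_iff_eq l1 (Nat.prime_of_mem_primeFactors
      (Finset.mem_filter.1 (h k)).1)).1 d ▸ k
  · exact absurd (Nat.dvd_one.1 d) l1.ne_one

theorem all (ram : RAM) {n : ℕ} (h : 2 ≤ n) (a1 : D.Ad pp α (D.mp p.M n)) (m0 : m ≠ 0)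
    (d : pp ^ 2 ∣ m) (s1 : m.primeFactors ⊆ Sb p.M) (s2 : ∀ l ∈ p.σ, L2 D p.χ l → ¬ l ∣ m)
    (t : D.Tr m (p.χj j)) (s : Finset ℕ) (hs : s ⊆ p.σ) :
    (m * ∏ l ∈ s, ee p l).primeFactors ⊆ Sb p.M ∧ ∃ w, ∀ g,
      algebraMap _ _ (p.t.i j (∏ l ∈ s, p.P' l)) * D.zc α (m * ∏ l ∈ s, ee p l : ℕ) (p.ιj j) (p.χj j) g -
      algebraMap _ _ (p.t.i j (∏ l ∈ s, p.P l)) * D.zc α m (p.ιj j) (p.χj j) g = (p.Φj j g - 1) * w := by
  have sub (s : Finset ℕ) (hs : s ⊆ p.σ) : (m * ∏ l ∈ s, ee p l).primeFactors ⊆ Sb p.M := by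
    rw [Nat.primeFactors_mul m0 (ee_ne p s hs)]
    exact Finset.union_subset s1 fun l k => Finset.mem_insert_of_mem (Finset.mem_filter.1 (hs
      (ee_dvd p s hs (Nat.prime_of_mem_primeFactors k) (Nat.dvd_of_mem_primeFactors k)))).1
  have ad' (s : Finset ℕ) (hs : s ⊆ p.σ) :=
    ad p h a1 (mul_ne_zero m0 (ee_ne p s hs)) (d.mul_right _) (sub s hs)
  refine ⟨sub s hs, ?_⟩
  induction s using Finset.induction_on with
  | empty => exact ⟨0, fun g => by simp⟩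
  | insert l s ls ih =>
    have hs' := (Finset.subset_insert l s).trans hs
    obtain ⟨w, hw⟩ := ih hs'
    have a2 := ad' _ hs
    simp only [Finset.prod_insert ls] at a2 ⊢
    by_cases h2 : L2 D p.χ l
    · have hl := hs (Finset.mem_insert_self l s)
      have hl' := (Finset.mem_filter.1 hl).1
      have l1 := Nat.prime_of_mem_primeFactors hl'
      rw [ee, if_pos h2, mul_comm l, ← mul_assoc, Nat.cast_mul] at a2
      obtain ⟨v, hv⟩ := step p j ram hl' h2 (fun k => (l1.dvd_mul.1 k).elim (s2 l hl h2)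
        fun k => ls (ee_dvd p s hs' l1 k)) (ad' s hs') a2 (by
          rw [Nat.cast_mul]
          exact Zr.Nrm.tr_mul p.cf t (Nat.cast_mul (α := D.O) _ _ ▸ (ad' s hs').ne))
      rw [ee, if_pos h2, mul_comm l, ← mul_assoc, Nat.cast_mul, Pe.P', if_pos h2]
      refine ⟨algebraMap _ _ (p.t.i j (∏ l ∈ s, p.P' l)) * v +
        algebraMap _ _ (p.t.i j (p.P l)) * w, fun g => ?_⟩
      simp only [map_mul, map_pow, map_natCast]
      linear_combination algebraMap _ _ (p.t.i j (∏ l ∈ s, p.P' l)) * hv g +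
        algebraMap _ _ (p.t.i j (p.P l)) * hw g
    · rw [ee, Pe.P, Pe.P', if_neg h2, if_neg h2, if_neg h2, one_mul, one_mul, one_mul]
      exact ⟨w, hw⟩

end Eu1

open Eu1

theorem eu1 [Pp] (ram : RAM) : EU1 := by
  intro A B D k C a b O _ p j n h t
  have M0 := mul_ne_zero p.fm.ne (pow_ne_zero n pp_ne)
  let T := (Sb p.M).filter fun l => ¬ (l ∈ p.σ ∧ L2 D p.χ l)
  obtain ⟨m', m0, s, t'⟩ := p.cg.cond _ (p.χj j) _ T M0 t fun l P i o lT hi => by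
    by_cases k : l ∈ Sb p.M
    · have : l ∈ p.σ ∧ L2 D p.χ l := by_contra fun c => lT (Finset.mem_filter.2 ⟨k, c⟩)
      obtain ⟨_, e⟩ := this.2 P i o hi
      exact (congrArg (qm a b (p.t.i j)) e).trans (map_one _)
    · obtain ⟨-, -, -, -, -, -, u⟩ := Pz1.unr p.cf p.fm (i := i) ⟨l, k, P, o, hi⟩
      exact t i (u n)
  have Tp (l) (k : l ∈ T) : l.Prime := pf p h ▸ (Finset.mem_filter.1 k).1 |> Nat.prime_of_mem_primeFactors
  have T0 : ∏ l ∈ T, l ≠ 0 := Finset.prod_ne_zero_iff.2 fun l k => (Tp l k).ne_zero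
  have pT : pp ∈ T := Finset.mem_filter.2 ⟨Finset.mem_insert_self _ _, fun c =>
    p.fm.cop (Nat.dvd_of_mem_primeFactors (Finset.mem_filter.1 c.1).1)⟩
  have m1 : m' * (∏ l ∈ T, l) ^ 2 ≠ 0 := mul_ne_zero m0 (pow_ne_zero _ T0)
  have e : (m' * (∏ l ∈ T, l) ^ 2).primeFactors = T := by
    rw [Nat.primeFactors_mul m0 (pow_ne_zero _ T0), Nat.primeFactors_pow _ two_ne_zero,
      Nat.primeFactors_prod Tp, Finset.union_eq_right.2 s]
  have d : pp ^ 2 ∣ m' * (∏ l ∈ T, l) ^ 2 :=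
    (pow_dvd_pow_of_dvd (Finset.dvd_prod_of_mem _ pT) 2).mul_left _
  have t1 : D.Tr (m' * (∏ l ∈ T, l) ^ 2 : ℕ) (p.χj j) := by
    rw [Nat.cast_mul]
    exact Zr.Nrm.tr_mul p.cf t' (Nat.cast_mul (α := D.O) _ _ ▸ Ep.nat_ne m1)
  generalize m' * (∏ l ∈ T, l) ^ 2 = m at m1 e d t1
  have s1 : m.primeFactors ⊆ Sb p.M := e ▸ Finset.filter_subset _ _
  refine ⟨m, s1, t1, fun α a1 => ⟨ad p h a1 m1 d s1, ?_⟩⟩
  obtain ⟨s3, w, hw⟩ := all p j ram h a1 m1 d s1 (fun l k h2 c => (Finset.mem_filter.1 (e ▸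
    Nat.mem_primeFactors.2 ⟨Nat.prime_of_mem_primeFactors (Finset.mem_filter.1 k).1, c, m1⟩ :
      l ∈ T)).2 ⟨k, h2⟩) t1 p.σ subset_rfl
  have m2 := mul_ne_zero m1 (ee_ne p p.σ subset_rfl)
  have s4 : Sb p.M ⊆ (m * ∏ l ∈ p.σ, ee p l).primeFactors := fun l k => by
    have l1 : l.Prime := Nat.prime_of_mem_primeFactors (pf p h ▸ k)
    refine Nat.mem_primeFactors.2 ⟨l1, ?_, m2⟩
    by_cases c : l ∈ p.σ ∧ L2 D p.χ l
    · refine Dvd.dvd.mul_left (.trans ?_ (Finset.dvd_prod_of_mem _ c.1)) _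
      rw [ee, if_pos c.2]
    · exact (Nat.dvd_of_mem_primeFactors (e ▸ Finset.mem_filter.2 ⟨k, c⟩)).mul_right _
  have t2 : D.Tr (m * ∏ l ∈ p.σ, ee p l : ℕ) (p.χj j) := by
    rw [Nat.cast_mul]
    exact Zr.Nrm.tr_mul p.cf t1 (Nat.cast_mul (α := D.O) _ _ ▸ Ep.nat_ne m2)
  have d2 : pp ^ 2 ∣ m * ∏ l ∈ p.σ, ee p l := d.mul_right _
  generalize m * ∏ l ∈ p.σ, ee p l = q at s3 hw m2 s4 t2 d2
  have s5 : (q * (p.M * pp ^ n)).primeFactors ⊆ Sb p.M := by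
    rw [Nat.primeFactors_mul m2 M0, pf p h]
    exact Finset.union_subset s3 subset_rfl
  have a3 := ad p h a1 (mul_ne_zero m2 M0) (d2.mul_right _) s5
  obtain ⟨u, hu⟩ := dv p j (ad p h a1 m2 d2 s3) a3 (dvd_mul_right _ _) (s5.trans s4) t2
  obtain ⟨v, hv⟩ := dv p j a1 a3 (dvd_mul_left _ _) (pf p h ▸ s5) t
  rw [Finset.prod_coe_sort p.σ p.P', Finset.prod_coe_sort p.σ p.P]
  refine ⟨w + algebraMap _ _ (p.t.i j (∏ l ∈ p.σ, p.P' l)) * (u - v), fun g => ?_⟩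
  simp only [Pi.smul_apply, Algebra.smul_def]
  linear_combination hw g + algebraMap _ _ (p.t.i j (∏ l ∈ p.σ, p.P' l)) * (hu g - hv g)

end Vale.Agent.P014X.Dv
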