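import Vale.Agent.P014X.Dv.St
import Vale.Agent.P014X.Fm.Pz0
import Vale.Agent.P014X.Fm.Pts

/-! # P014X, block DVO: the smoothing and the conjugation (row `EU2`) -/

set_option autoImplicit false
set_option linter.all false

open QuadraticAlgebra
open scoped Classical

noncomputable section

namespace Vale.Agent.P014X.Dv

open Vale.Agent.P022 (Qb GQ)
open Vale.Agent.P014U
open Vale.Agent.P014U.Dr (Zn)
open Vale.Agent.P014U.Pp (ec)
open P004M.TE (Pt ga ga_mul ga_one)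
open Cf0

namespace E2

variable {A B : ℤ} {D : Cd A B} {a b : ℤ} {R : Type} [CommRing R] {N : ℕ} {α m β ζ : D.O} {g : D.G}

theorem ac_cg (m0 : m ≠ 0) (e : star m = m) (h : D.Ac m g β) : D.Ac m (D.cg g) (star β) :=
  ⟨(D.cg g).2, by
    rw [Pts.cg_val, ga_mul, ga_mul, ac_all m0 h (by
      rw [← e, ← sem D _ (c_not D), e, (ker D _ m0 _).2 dvd_rfl, map_zero]),
      sem D _ (c_not D), ← ga_mul, c2, ga_one]⟩

theorem cg_inv (g : D.G) : D.cg g⁻¹ = (D.cg g)⁻¹ := Subtype.ext <| by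
  simp only [Pts.cg_val, Subgroup.coe_inv, mul_inv_rev, inv_eq_of_mul_eq_one_right (c2 D), mul_assoc]

theorem cg_hm (m0 : m ≠ 0) (e : star m = m) (u : IsUnit ζ) (eb : star β = β)
    (h : D.Ac m g (ζ * β)) : ((D.cg g)⁻¹ * g).1 ∈ D.Hm m := by
  obtain ⟨γ, k⟩ := ac_ex m0 (D.cg g)⁻¹.2
  obtain ⟨ζ', z⟩ := u.star.exists_left_inv
  have c := ac_mul k (ac_cg m0 e h)
  rw [← Subgroup.coe_mul, inv_mul_cancel, star_mul', eb] at c
  refine (hm D m m0 _).2 ⟨ζ * ζ', u.mul (.of_mul_eq_one _ z), ac_congr m0 (ac_mul k h) ?_⟩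
  convert (ac_uniq m0 c ac_one).mul_left (ζ * ζ') using 1
  linear_combination (-γ * ζ * β) * z

variable [Pp]

/-- the class is odd -/
theorem cnj (W : D.Rw) (ad : D.Ad pp α m) (ea : star α = α) (e : star m = m) (ι : Zn N →+* R)
    {χ : D.G →* Qa a b R} (t : D.Tr m χ) (j : D.Cj χ) : ∃ w, ∀ g,
      star (D.zc α m ((algebraMap R _).comp ι) χ (D.cg g)) + D.zc α m ((algebraMap R _).comp ι) χ g =
        (D.aq ι χ g - 1) * w := by
  obtain ⟨w, h⟩ := W.cnj N α m _ ((algebraMap R _).comp ι) χ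
    ((starRingEnd _).toMonoidHom.comp χ) ad t fun g => (j g).symm
  refine ⟨star w, fun g => ?_⟩
  have k := congrArg star (h g)
  have m := W.map N α m _ _ (starRingEnd _) ((algebraMap R (Qa a b R)).comp ι)
    ((starRingEnd _).toMonoidHom.comp χ) g ad.ne
  rw [RingHom.ext_zmod ((starRingEnd _).comp _) ((algebraMap R (Qa a b R)).comp ι),
    show (starRingEnd _).toMonoidHom.comp ((starRingEnd _).toMonoidHom.comp χ) = χ from
      MonoidHom.ext fun g => star_star _] at m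
  rw [ea, e, Pi.neg_apply, sub_neg_eq_add, star_add, star_mul', star_sub, star_one] at k
  rw [← m, starRingEnd_apply, k]
  exact congrArg (fun x => (x - 1) * star w) ((star_mul' _ _).trans
    (congrArg₂ _ (Pz0.star_alg _) (star_star _)))

theorem real (ι : Zn N →+* R) {x : Qa a b R} (h : star x = x) : algebraMap R _ x.re = x := by
  refine QuadraticAlgebra.ext rfl (((Pts.unit_two (n := N)).map ι).mul_left_cancel ?_)
  have := congrArg im h
  rw [im_star] at this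
  rw [map_ofNat, algebraMap_im]
  linear_combination this

end E2

open E2

variable [Pp]

theorem eu2 : EU2 := by
  intro A B D k C a b O _ p j n h2 t
  have ad := Pz0.ad p.fm.ne p.ga h2
  have cj := Pz0.cj_map p.gf.cj (p.t.i j)
  have em : star (D.mp p.M n) = D.mp p.M n := star_natCast _
  constructor
  · obtain ⟨w, h⟩ := cnj p.rw ad (star_natCast _) em (p.t.f j) t cj
    refine ⟨-dl a b _ * w, fun g => ?_⟩
    have e : star (dl a b (p.t.L j)) = -dl a b _ :=
      QuadraticAlgebra.ext (by simp [dl]; ring) (by simp [dl])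
    simp only [Cd.tc, Pi.smul_apply, smul_eq_mul, star_mul', e]
    linear_combination (-dl a b (p.t.L j)) * h g
  have m0 := Pz0.mp_ne (D := D) (n := n + p.t.N j) (mul_ne_zero (by norm_num : 6 ≠ 0) p.fm.ne)
  have d : 6 * D.mp p.M n ∣ D.mp (6 * p.M) (n + p.t.N j) :=
    ⟨pp ^ p.t.N j, by simp only [Cd.mp]; push_cast; ring⟩
  obtain ⟨β, c, h⟩ := ac D _ m0 _ p.g.2
  obtain ⟨ζ, u, hs⟩ := p.ga.ac n
  have ad' : D.Ad pp β (D.mp p.M n) := ⟨ad.ne, ad.dv, c.of_isCoprime_of_dvd_right d⟩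
  refine ⟨β, ad', ?_⟩
  have s := p.rw.smo _ _ _ _ ζ 1 p.gs p.g _ (p.ιj j) (p.χj j) ad ad' u isUnit_one hs
    (by rw [one_mul]; exact Fm.Psi.ac_dvd m0 ((dvd_mul_left _ _).trans d) h) t
  have e1 : (D.nm β : Qa a b (p.t.L j)) = algebraMap _ _ (p.t.i j (cs C p.g)) := by
    rw [← map_natCast (p.ιj j), ← P014U.Pp.Lcb.ec_eq (det D _ _ β (pow_ne_zero _ pp_ne)
      (Fm.Psi.ac_dvd m0 ⟨6 * p.M * pp ^ n, by simp only [Cd.mp]; push_cast; ring⟩ h))]
    exact congrArg (algebraMap _ _) (Pz0.zp_ext (Pz0.pw_zero (p.t.f j))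
      ((p.t.f j).comp (PadicInt.toZModPow _)) ((p.t.i j).comp (algebraMap _ _)) _)
  have e2 : p.χj j (D.cg p.gs)⁻¹ = p.χj j p.gs⁻¹ := by
    rw [← mul_inv_cancel_right (D.cg p.gs)⁻¹ p.gs, map_mul,
      t _ (cg_hm ad.ne em u (star_natCast _) hs), one_mul]
  have e3 : (D.nm p.s : Qa a b (p.t.L j)) - p.χj j p.gs⁻¹ =
      algebraMap _ _ (p.t.i j (sf p.s p.χ p.gs)) := by
    have : (D.nm p.s : Qa a b (p.t.L j)) - p.χj j p.gs⁻¹ =
        qm a b (p.t.i j) ((p.s : Qa a b C.R) ^ 2 - p.χ p.gs⁻¹) := by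
      rw [map_sub, map_pow, map_natCast, show D.nm p.s = p.s ^ 2 by
        simp [Cd.nm, Int.natAbs_pow], Nat.cast_pow]
      rfl
    refine (real (p.t.f j) ?_).symm.trans (by rw [this]; rfl)
    rw [star_sub, star_natCast, ← cj, ← e2, cg_inv]
  rwa [e1, e3, algebraMap_smul] at s

end Vale.Agent.P014X.Dv
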