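import Vale.Agent.P014X.Dv.St
import Vale.Agent.P014X.Fm.Ind
import Vale.Agent.P014U.Pp.Lcb
import Vale.Agent.P004S.A.Loc

/-! # P014X, block DVO: the row `GL0` -/

set_option autoImplicit false
set_option linter.all false

open NumberField Matrix Filter
open scoped Classical

noncomputable section

namespace Vale.Agent.P014X.Dv

open Vale.Agent.P022 (Qb GQ IsConj)
open Vale.Agent.P027M.S (Inert)
open Vale.Agent.P022D.W (dec)
open Vale.Agent.P022E.GW (Ov Fb)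
open Vale.Agent.P014U
open Vale.Agent.P014U.Dr (Zn)
open Vale.Agent.P014U.Kq (M2)
open Vale.Agent.P014U.Pq (Gd Tm)
open Vale.Agent.P014U.X4S.Aq (cz)
open Vale.Agent.P014U.Pp (ec Jm)

namespace G0

section

variable {a b : ℤ} {R S : Type} [CommRing R] [CommRing S] (f : R →+* S)

theorem mm_map (x : Qa a b R) : (mm x).map f = mm (qm a b f x) := by
  ext i j
  fin_cases i <;> fin_cases j <;> simp [mm, qm]

theorem cm_map : (cm b R).map f = cm b S := by
  ext i j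
  fin_cases i <;> fin_cases j <;> simp [cm]

theorem qm_smul (r : R) (x : Qa a b R) : qm a b f (r • x) = f r • qm a b f x :=
  QuadraticAlgebra.ext (by simp [qm]) (by simp [qm])

theorem qm_star (x : Qa a b R) : qm a b f (star x) = star (qm a b f x) :=
  QuadraticAlgebra.ext (by simp [qm]) (by simp [qm])

theorem du1 (r : R) {x y : Qa a b R} (h : x * y = 1) :
    (mm (r • x))ᵀ * Jm R * mm (star y) = r • Jm R := by
  have h1 : x.re * y.re + a * x.im * y.im = 1 := congrArg QuadraticAlgebra.re h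
  have h2 : x.re * y.im + x.im * y.re + b * x.im * y.im = 0 := congrArg QuadraticAlgebra.im h
  ext i j
  fin_cases i <;> fin_cases j <;> simp [mm, Jm, mul_apply, Fin.sum_univ_two]
  · linear_combination (-r) * h2
  · linear_combination r * h1
  · linear_combination (-r) * h1 - (r * b) * h2
  · linear_combination (r * a) * h2

theorem du2 : (cm b R)ᵀ * Jm R * cm b R = -Jm R := by
  ext i j
  fin_cases i <;> fin_cases j <;> simp [cm, Jm, mul_apply, Fin.sum_univ_two]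

theorem cm_fix : cm b R *ᵥ ![1, 0] = ![1, 0] := by
  ext i
  fin_cases i <;> simp [cm, mulVec, dotProduct, Fin.sum_univ_two]

variable [Pp]

theorem nu_zero [IsLocalRing R] (π : R →+* ZMod pp) {x : R} (h : ¬ IsUnit x) : π x = 0 :=
  (IsLocalRing.eq_maximalIdeal (RingHom.ker_isMaximal_of_surjective π
    (ZMod.ringHom_surjective π))).ge h

/-- the residue map is unique -/
theorem res_eq [IsLocalRing R] (π π' : R →+* ZMod pp) : π = π' := RingHom.ext fun x => by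
  have e : π (x - (π x).val) = 0 := by rw [map_sub, map_natCast, ZMod.natCast_zmod_val, sub_self]
  have := nu_zero π' (x := x - (π x).val) fun u => (u.map π).ne_zero e
  rw [map_sub, map_natCast, ZMod.natCast_zmod_val, sub_eq_zero] at this
  exact this.symm

theorem hom_eq {N : ℕ} (ι : Zn N →+* R) (φ : ℤ_[pp] →+* R) (x : ℤ_[pp]) :
    ι (PadicInt.toZModPow N x) = φ x := by
  obtain ⟨y, e⟩ := Ideal.mem_span_singleton.1 (PadicInt.appr_spec N x)
  have z : ((pp ^ N : ℕ) : R) = 0 := by rw [← map_natCast ι, ZMod.natCast_self, map_zero]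
  rw [sub_eq_iff_eq_add.1 e, ← Nat.cast_pow]
  simp only [map_add, map_mul, map_natCast, z, zero_mul]

theorem cz_conj {c : GQ} (h : IsConj c) : (cz c : ℤ_[pp]) = -1 :=
  PadicInt.ext_of_toZModPow.1 fun n => by
    rw [map_neg, map_one, ← P022.H853.cyc_conj (m := pp ^ n) h, ← X4M.TE.cz_mod]; rfl

theorem cz_in {l : ℕ} {P : Ideal (𝓞 Qb)} (o : Ov l P) (h : l ≠ pp) {g : GQ} (i : Inert P g) :
    (cz g : ℤ_[pp]) = 1 := Subtype.ext (X4S.Aq.cy_in o h i)

omit [Pp] in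
theorem gd_of {T S₀ : Finset ℕ} (r : GQ →* M2 R) {W : Subgroup GQ} (o : IsOpen (W : Set GQ))
    (h : ∀ g ∈ W, r g = 1) (u : ∀ l P i, Ov l P → l ∉ S₀ → Inert P i → i ∈ W) (s : S₀ ⊆ T)
    (pr : ∀ l ∈ T, l.Prime) : Gd ⊤ T r :=
  ⟨isOpen_univ, inferInstance, pr, map_one _, fun g _ k _ => map_mul _ g k, ⟨W, o, fun g _ => h g⟩,
    fun g _ ⟨l, m, P, o, i⟩ => h g (u l P g o (fun k => m (s k)) i)⟩

end

variable [Pp] {A B : ℤ} {D : Cd A B} {k : ℕ} {C : Cr k} {a b : ℤ} {O : Type} [CommRing O]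
  (p : Pe D C a b O) {S : Type} [CommRing S] (f : C.R →+* S)

omit [Pp] in
theorem conj (D : Cd A B) : IsConj D.c := ⟨P027M.M.io.toRingHom, D.cc⟩

theorem r1 (g : D.G) : (p.ρ g).map f = mm (f (cs C g) • qc f p.χ g) := by
  rw [p.hρ, mm_map, qm_smul]; rfl

theorem r2 (g : D.G) : (p.ρ' g).map f = mm (star (qc f p.χ g⁻¹)) := by
  rw [p.hρ', mm_map, qm_star]; rfl

theorem one_of (g : D.G) (h1 : qc f p.χ g = 1) (h2 : f (cs C g) = 1) :
    (p.ρ g).map f = 1 ∧ (p.ρ' g).map f = 1 := by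
  have : qc f p.χ g⁻¹ = 1 := by
    have := map_mul (qc f p.χ) g⁻¹ g
    rwa [inv_mul_cancel, map_one, h1, mul_one, eq_comm] at this
  rw [r1, r2, h1, h2, this, one_smul, star_one]
  exact ⟨Fm.Ind.mm_one, Fm.Ind.mm_one⟩

/-- **the duality** -/
theorem dual (g : GQ) : ((p.ρ g).map f)ᵀ * Jm S * (p.ρ' g).map f = f (cs C g) • Jm S := by
  have e (g : D.G) : ((p.ρ g).map f)ᵀ * Jm S * (p.ρ' g).map f = f (cs C g) • Jm S := by
    rw [r1, r2]
    exact du1 _ (by rw [← map_mul, mul_inv_cancel, map_one])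
  obtain ⟨g, rfl⟩ | ⟨g, rfl⟩ := Fm.Ind.cases p.cf g
  · exact e g
  · have c : cs C (g * D.c) = -cs C g := by
      rw [cs, map_mul, Units.val_mul, cz_conj (conj D), mul_neg_one, map_neg]
    rw [map_mul, map_mul, Matrix.map_mul, Matrix.map_mul, p.hc, p.hc', cm_map, transpose_mul, c,
      map_neg, neg_smul, ← smul_neg, ← du2 (b := b), ← smul_mul_assoc, ← mul_smul_comm, ← e]
    simp only [mul_assoc]

theorem cs_ec (j : ℕ) (g : GQ) : p.t.f j (ec (p.t.N j) g) = p.t.i j (cs C g) :=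
  hom_eq (p.t.f j) ((p.t.i j).comp (algebraMap ℤ_[pp] C.R)) _

theorem sb_pr (M : ℕ) : ∀ l ∈ Sb M, l.Prime := fun l m =>
  (Finset.mem_insert.1 m).elim (· ▸ pp_prime) Nat.prime_of_mem_primeFactors

/-- the kernel at one level -/
theorem lev (j : ℕ) : ∃ W : Subgroup GQ, IsOpen (W : Set GQ) ∧
    (∀ g ∈ W, p.rj j p.ρ g = 1 ∧ p.rj j p.ρ' g = 1) ∧
    ∀ l P i, Ov l P → l ∉ Sb p.M → Inert P i → i ∈ W := by
  obtain ⟨n, t⟩ := p.gf.tr j
  have m0 : D.mp p.M n ≠ 0 := fun e => mul_ne_zero p.fm.ne (pow_ne_zero n pp_ne)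
    (by exact_mod_cast congrArg QuadraticAlgebra.re e)
  refine ⟨D.Hf (D.mp p.M n) ⊓ Dr.Hm (pp ^ p.t.N j),
    (p.cf.oH _ m0).inter (Dr.Hm_open (pow_ne_zero _ pp_ne)), fun g m => one_of p _ ⟨g, m.1.1⟩
      (t _ ((p.cf.hm _ m0 g).2 ⟨1, isUnit_one, m.1.1, by rw [map_one]; exact m.1.2⟩))
      (by rw [← cs_ec, Pp.Lcb.ec_hm m.2, map_one]), fun l P i o m h => ?_⟩
  have l2 : l ≠ pp := fun e => m (e ▸ Finset.mem_insert_self _ _)
  have d : ∀ n, ¬ l ∣ p.M * pp ^ n := fun n d => (o.1.dvd_mul.1 d).elim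
    (fun d => m (Finset.mem_insert_of_mem (Nat.mem_primeFactors.2 ⟨o.1, d, p.fm.ne⟩)))
    (Dr.nd_two o l2 n)
  refine ⟨p.cf.good l P i o (fun e => ?_) h _ m0 fun e => ?_, Dr.inert_Hm o (Dr.nd_two o l2 _) h⟩
  · obtain ⟨s, e'⟩ := p.fm.dv
    exact d s (((p.cg.pf l o.1).2 e).trans e')
  · rw [map_natCast] at e
    obtain ⟨x, y, z⟩ : IsCoprime (l : 𝓞 Qb) (p.M * pp ^ n : ℕ) :=
      ((Nat.Prime.coprime_iff_not_dvd o.1).2 (d n)).cast
    exact o.2.1.ne_top ((Ideal.eq_top_iff_one P).2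
      (z ▸ add_mem (P.mul_mem_left x o.2.2) (P.mul_mem_left y e)))

theorem σ_mem (y : p.σ) : y.1 ∈ p.M.primeFactors := (Finset.mem_filter.1 y.2).1

theorem σ_pr (y : p.σ) : y.1.Prime := Nat.prime_of_mem_primeFactors (σ_mem p y)

theorem σ_ne (y : p.σ) : y.1 ≠ pp := fun e => p.fm.cop (e ▸ Nat.dvd_of_mem_primeFactors (σ_mem p y))

/-- the inertia groups at the tame places -/
theorem ord (y : p.σ) {g : GQ} (i : Inert (p.pl.P y) g) :
    (p.ρ (g ^ pp)).map f = 1 ∧ (p.ρ' (g ^ pp)).map f = 1 := by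
  have o := p.pl.ov y (σ_pr p y)
  obtain ⟨h, e⟩ : ∃ h : g ∈ D.G, p.χ ⟨g, h⟩ ^ pp = 1 := by
    obtain k | k | k := p.gf.loc y (σ_mem p y)
    · exact absurd k (Finset.mem_filter.1 y.2).2
    · obtain ⟨h, e⟩ := k _ g o i
      exact ⟨h, by rw [e, one_pow]⟩
    · exact k.1 _ g o i
  refine one_of p f (⟨g, h⟩ ^ pp) ?_ ?_
  · show qm a b f (p.χ _) = 1
    rw [map_pow p.χ, e, map_one]
  · show f (cs C (g ^ pp)) = 1
    rw [cs, map_pow, Units.val_pow_eq_pow_val, cz_in o (σ_ne p y) i, one_pow, map_one, map_one]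

theorem lv (j : ℕ) : p.fk.Lv j := by
  obtain ⟨W, o, h, u⟩ := lev p j
  have pr : ∀ l ∈ Sb p.M ∪ {p.q j}, l.Prime := fun l m => (Finset.mem_union.1 m).elim (sb_pr _ l)
    fun m => Finset.mem_singleton.1 m ▸ (p.oq j).1
  have tm (y : p.σ) (r : GQ →* M2 C.R) (k : ∀ g, Inert (p.pl.P y) g → p.rj j r (g ^ pp) = 1) :
      Tm (p.rj j r) y (p.pl.P y) (p.pl.σ y) (p.pl.τ y) :=
    ⟨p.pl.ov y (σ_pr p y), σ_ne p y, p.pl.fb y (σ_pr p y), p.pl.gn y (σ_pr p y) (σ_ne p y),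
      fun g i => ⟨1, by rw [pow_one, ← map_pow, k g i]⟩⟩
  exact ⟨gd_of (p.rj j p.ρ) o (fun g m => (h g m).1) u Finset.subset_union_left pr,
    gd_of (p.rj j p.ρ') o (fun g m => (h g m).2) u Finset.subset_union_left pr,
    fun g => (dual p (p.t.i j) g).trans (congrArg (· • Jm _) (cs_ec p j g).symm),
    (congrArg (· *ᵥ ![1, 0]) ((congrArg (·.map (p.t.i j)) p.hc).trans (cm_map _))).trans cm_fix,
    fun y => Finset.mem_union_left _ (Finset.mem_insert_of_mem (σ_mem p y)), Subtype.val_injective,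
    fun y => tm y _ fun g i => (ord p _ y i).1, fun y => tm y _ fun g i => (ord p _ y i).2,
    fun _ => rfl, fun _ => rfl⟩

end G0

open G0

variable [Pp]

/-- **row GL0** -/
theorem gl0 : GL0 := by
  intro A B D k C a b O _ p
  let π := (p.t.π 0).comp (p.t.i 0)
  let a₀ := π.mapMatrix.toMonoidHom.comp p.ρ
  let a₁ := π.mapMatrix.toMonoidHom.comp p.ρ'
  have e (j : ℕ) (X : M2 C.R) : (X.map (p.t.i j)).map (p.t.π j) = X.map π :=
    congrArg (fun f : C.R →+* ZMod pp => X.map f) (res_eq ((p.t.π j).comp (p.t.i j)) π)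
  have z (X : M2 C.R) (h : X.map (p.t.i 0) = 1) : X.map π = 1 := by
    rw [← e 0, h, Matrix.map_one _ (map_zero _) (map_one _)]
  obtain ⟨W, o, h, u⟩ := lev p 0
  have hW : W ≤ a₀.ker ⊓ a₁.ker := fun g m => ⟨z _ (h g m).1, z _ (h g m).2⟩
  have g1 := one_of p π p.g (QuadraticAlgebra.ext (by
      have := nu_zero π p.rs.1
      rwa [QuadraticAlgebra.re_sub, map_sub, QuadraticAlgebra.re_one, map_one, sub_eq_zero] at this)
    (nu_zero π p.rs.2.1))
    ((DFunLike.congr_fun (res_eq (π.comp (algebraMap ℤ_[pp] C.R)) PadicInt.toZMod) _).trans p.rs.2.2)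
  refine ⟨.of_forall (lv p), Finset.mem_insert_self _ _, conj D, p.ov,
    ⟨1, fun j => (Finset.card_singleton _).le⟩, p.cf.nrm, fun g => (em (g ∈ D.G)).imp_right fun m => ?_,
    a₀, a₁, gd_of a₀ o (fun g m => (hW m).1) u subset_rfl (sb_pr _),
    gd_of a₁ o (fun g m => (hW m).2) u subset_rfl (sb_pr _), .of_forall fun j =>
    ⟨fun g => ⟨e j _, e j _⟩, p.q j, Finset.mem_union_right _ (Finset.mem_singleton_self _),
      fun s => p.nq j (s ▸ Finset.mem_insert_self _ _),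
      fun y s => p.nq j ((show y.1 = p.q j from s) ▸ Finset.mem_insert_of_mem (σ_mem p y)),
      p.Q j, p.oq j, P004S.Aq.frob0 (p.oq j) (p.fq j) (H := a₀.ker ⊓ a₁.ker)
        (mem_nhdsWithin_of_mem_nhds (mem_of_superset (o.mem_nhds (one_mem W)) hW))
        (fun g i => hW (u _ _ g (p.oq j) (p.nq j) i)) ⟨?_, ?_⟩⟩⟩
  · show D.c⁻¹ * g ∈ D.G
    rw [Fm.Ind.c_inv p.cf]
    exact p.cf.nrm.mem_comm ((p.cf.cG g).1 m)
  · exact (e j _).symm.trans ((congrArg (·.map (p.t.π j)) (p.e1 j)).trans ((e j _).trans g1.1))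
  · exact (e j _).symm.trans ((congrArg (·.map (p.t.π j)) (p.e2 j)).trans ((e j _).trans g1.2))

end Vale.Agent.P014X.Dv
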