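import Vale.Agent.P014X.Dv.St
import Vale.Agent.P014X.Fm.Ind

/-! # P014X, block DVO, row `GL1`: the group theory of the limit -/

set_option autoImplicit false
set_option linter.all false

open Matrix Filter QuadraticAlgebra

noncomputable section

namespace Vale.Agent.P014X.Dv

open Vale.Agent.P022 (GQ)
open Vale.Agent.P014U
open Vale.Agent.P014U.Kq (M2)
open Vale.Agent.P014U.Pp (Jm lg)
open Vale.Agent.P004F.Pat (U lm lm_one lm_mul lm_neg lm_det)
open Vale.Agent.P014X.Kq (Go)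
open Vale.Agent.P014X.Fm.Ind (mm_mul mm_one)

namespace G1

section

variable {a b : ℤ} {R : Type} [CommRing R]

theorem det_sub (x : Qa a b R) : (mm x - 1).det = (x - 1).norm := by
  simp [mm, det_fin_two, QuadraticAlgebra.norm_def, re_one, im_one]
  ring

theorem dl_sq : dl a b R * dl a b R = algebraMap R _ (b ^ 2 + 4 * a : R) := by
  ext <;> simp only [dl, re_mul, im_mul, algebraMap_re, algebraMap_im] <;> ring

theorem inv_sq (h : IsUnit (b ^ 2 + 4 * a : R)) :
    Ring.inverse (dl a b R) ^ 2 * (b ^ 2 + 4 * a) = 1 := by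
  have u : IsUnit (dl a b R) := isUnit_of_mul_isUnit_left (y := dl a b R) (by
    rw [dl_sq]; exact h.map _)
  have e : (b ^ 2 + 4 * a : Qa a b R) = dl a b R * dl a b R := by
    rw [dl_sq]; simp only [map_add, map_mul, map_pow, map_intCast, map_ofNat]
  rw [e, ← sq, ← mul_pow, Ring.inverse_mul_cancel _ u, one_pow]

theorem rf_eq : rf a b R = Ring.inverse (dl a b R) • (!![-b, 2 * a; 2, b] : M2 (Qa a b R)) := by
  unfold rf
  congr 1
  ext i j : 1
  fin_cases i <;> fin_cases j <;> simp [mm, dl, map_ofNat] <;> ring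

theorem rf_tr : (rf a b R).trace = 0 := by
  rw [rf_eq, trace_smul, trace_fin_two_of, neg_add_cancel, smul_zero]

theorem rf_det (h : IsUnit (b ^ 2 + 4 * a : R)) : (rf a b R).det = -1 := by
  rw [rf_eq, det_smul, det_fin_two_of, Fintype.card_fin, ← inv_sq h]
  ring

theorem rf_anti : cm b (Qa a b R) * rf a b R = -(rf a b R * cm b _) := by
  rw [rf_eq, Matrix.mul_smul, Matrix.smul_mul, ← smul_neg]
  congr 1
  ext i j : 1
  fin_cases i <;> fin_cases j <;> simp [cm, Matrix.mul_apply, Fin.sum_univ_two] <;> ring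

theorem cm_map {S : Type} [CommRing S] (f : R →+* S) : (cm b R).map f = cm b S := by
  ext i j
  fin_cases i <;> fin_cases j <;> simp [cm]

theorem tJ (X : M2 R) : Xᵀ * Jm R * X = X.det • Jm R := by
  ext i j
  fin_cases i <;> fin_cases j <;>
    simp [Jm, P014T.Pp.Jm, Matrix.mul_apply, Fin.sum_univ_two, det_fin_two] <;> ring

end

theorem lm_cm {L : ℕ → Type} [∀ j, CommRing (L j)] {O : Type} [CommRing O] (ψ : (∀ j, L j) →+* O)
    (b : ℤ) : lm ψ (fun j => cm b (L j)) = cm b O :=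
  (congrArg (Matrix.map · ψ) (show (.of fun i k j => cm b (L j) i k) = cm b (∀ j, L j) by
    ext i k j
    fin_cases i <;> fin_cases k <;> simp [cm])).trans (cm_map ψ)

theorem lm_trace {L : ℕ → Type} [∀ j, CommRing (L j)] {O : Type} [CommRing O]
    (ψ : (∀ j, L j) →+* O) (A : ∀ j, M2 (L j)) : (lm ψ A).trace = ψ fun j => (A j).trace := by
  simp only [trace_fin_two]
  exact (ψ.map_add _ _).symm

variable [Pp]

theorem comm_Hm (n : ℕ) (x g : GQ) : x * g * x⁻¹ * g⁻¹ ∈ Dr.Hm (pp ^ n) := by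
  have := NeZero.mk (pow_ne_zero n pp_ne)
  obtain ⟨-, χ, -, -, h, -⟩ := P014T.Dr.ex_cy (pp ^ n)
  rw [h, map_mul, map_mul, map_mul, map_inv, map_inv, mul_inv_cancel_comm, mul_inv_cancel]

variable {A B : ℤ} {D : Cd A B} {k : ℕ} {C : Cr k} {a b : ℤ} {O : Type} [CommRing O]
  (p : Pe D C a b O)

theorem lm_i (X : M2 C.R) : lm (p.φ.comp p.t.lim) (fun j => X.map (p.t.i j)) = X.map p.φ :=
  Matrix.ext fun _ _ => congrArg p.φ (p.t.id _)

theorem un (j : ℕ) : IsUnit (b ^ 2 + 4 * a : p.t.L j) := by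
  simpa only [map_add, map_mul, map_pow, map_intCast, map_ofNat] using
    p.un.map ((p.t.i j).comp PowerSeries.C)

theorem com {r : GQ →* M2 C.R} {x : D.G → Qa a b C.R} (h : ∀ g : D.G, r g = mm (x g)) {g g' : GQ}
    (m : g ∈ D.G) (m' : g' ∈ D.G) (j : ℕ) : p.rj j r (g * g' * g⁻¹ * g'⁻¹) = 1 := by
  have e : r (g * g') = r (g' * g) := by
    rw [map_mul, map_mul, h ⟨g, m⟩, h ⟨g', m'⟩, ← mm_mul, ← mm_mul, mul_comm]
  have : r (g * g' * g⁻¹ * g'⁻¹) = 1 := by
    rw [map_mul, map_mul, e, ← map_mul, ← map_mul, mul_inv_cancel_right, mul_inv_cancel, map_one]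
  exact (congrArg (p.t.i j).mapMatrix this).trans (map_one _)

theorem side (r : GQ →* M2 C.R) (A : M2 O) (hc : r D.c = cm b _)
    (h1 : ∀ h ∈ p.fk.H, ∀ᶠ j in U, p.rj j r (h j) = 1) (u : IsUnit (p.φ (r p.g - 1).det))
    (tr : A.trace = 0) (det : A.det = -1) (an : cm b O * A = -(A * cm b O)) :
    Go (lg p.fk.ψ fun j => p.gl j r) p.fk.Kl p.fk.H (fun _ => D.c) A := by
  have e : ∀ g, (lg p.fk.ψ fun j => p.gl j r).ρ (fun _ => g) = (r g).map p.φ := fun g => lm_i p _
  have ec := e D.c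
  rw [hc, cm_map] at ec
  refine ⟨fun h m => (p.fk.ae.lm (h1 h m)).trans lm_one, ⟨fun _ => p.g, .of_forall fun _ => p.g.2,
    ?_, fun g m => Eventually.mono m fun j mj =>
      ⟨com p p.hρ p.g.2 mj j, com p p.hρ' p.g.2 mj j, comm_Hm _ _ _⟩⟩, ⟨![2, b], ?_⟩, tr, det, ?_⟩
  · rw [e]
    rwa [RingHom.map_det, map_sub, map_one] at u
  · have g : (lg p.fk.ψ fun j => p.gl j r).gp = ![1, 0] := by
      funext i
      fin_cases i
      · exact p.fk.ψ.map_one
      · exact p.fk.ψ.map_zero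
    rw [ec, g]
    ext i j
    fin_cases i <;> fin_cases j <;> simp [cm, vecMulVec_apply, one_add_one_eq_two]
  · rw [ec, an]

theorem u1 : IsUnit (p.φ (p.ρ p.g - 1).det) := by
  have := p.ug
  rw [Cd.nn, map_mul] at this
  rw [p.hρ, det_sub]
  exact isUnit_of_mul_isUnit_right this

theorem u2 : IsUnit (p.φ (p.ρ' p.g - 1).det) := by
  have := p.ug
  rw [Cd.nn, map_mul] at this
  have e : star (p.χ p.g⁻¹) - 1 = star (-p.χ p.g⁻¹ * (p.χ p.g - 1)) := by
    rw [mul_sub, neg_mul, ← map_mul, inv_mul_cancel, map_one, mul_one, neg_sub_neg, star_sub, star_one]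
  rw [p.hρ', det_sub, e, QuadraticAlgebra.norm_star, map_mul, map_mul]
  exact ((((Group.isUnit p.g⁻¹).map p.χ).neg.map QuadraticAlgebra.norm).map p.φ).mul
    (isUnit_of_mul_isUnit_left this)

end G1

open G1

variable [Pp]

theorem gl1 : GL1 := by
  intro A B D k C a b O _ p
  have tr : (lm p.fk.ψ' p.fk.A).trace = 0 :=
    (lm_trace _ _).trans ((congrArg p.fk.ψ' (funext fun j => rf_tr)).trans p.fk.ψ'.map_zero)
  have det : (lm p.fk.ψ' p.fk.A).det = -1 :=
    (lm_det _).trans ((congrArg p.fk.ψ' (funext fun j => rf_det (un p j))).trans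
      ((p.fk.ψ'.map_neg 1).trans (congrArg _ p.fk.ψ'.map_one)))
  have an : cm b O * lm p.fk.ψ' p.fk.A = -(lm p.fk.ψ' p.fk.A * cm b O) := by
    rw [← lm_cm p.fk.ψ' b, ← lm_mul, ← lm_mul, ← lm_neg]
    exact congrArg _ (funext fun j => rf_anti)
  have e : lm p.fk.ψ' p.fk.A' = -lm p.fk.ψ' p.fk.A := lm_neg _
  refine ⟨side p p.ρ _ p.hc (fun h m => Eventually.mono m fun j e => e.1) (u1 p) tr det an,
    side p p.ρ' _ p.hc' (fun h m => Eventually.mono m fun j e => e.2.1) (u2 p) ?_ ?_ ?_, ?_,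
    fun _ => p.g, fun _ => p.dc, ?_⟩
  · rw [e, trace_neg, tr, neg_zero]
  · rw [e, det_neg, det]; simp
  · rw [e, Matrix.mul_neg, an, Matrix.neg_mul]
  · rw [e, Matrix.mul_neg, tJ, det, neg_smul, one_smul, neg_neg]
  · have := u2 p
    rw [RingHom.map_det, map_sub, map_one] at this
    exact (congrArg (fun X => IsUnit (X - 1).det) (lm_i p (p.ρ' p.g))).mpr this

end Vale.Agent.P014X.Dv
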