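import Vale.Agent.P014U.Pp.St
import Vale.Agent.P014U.Pp.Van0

/-! # P014X, block DVO: numbers which kill the local classes -/

set_option autoImplicit false
set_option linter.all false

open NumberField Matrix

noncomputable section

namespace Vale.Agent.P014X.Dv

open Vale.Agent.P022 (Qb GQ)
open Vale.Agent.P027M.S (Inert)
open Vale.Agent.P022D.W (dec)
open Vale.Agent.P022E.GW (Ov Fb)
open Vale.Agent.P014U
open Vale.Agent.P004F.Pr (ac ac_add ac_smul ac_zero)
open Vale.Agent.P004F.Ra (ac_mul ac_one ac_sm)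
open Vale.Agent.P004F.Va (ac_s1 ac_sub det_kill)
open Vale.Agent.P014U.Pq (Zq Gd Tm)
open Vale.Agent.P014U.Kq (M2)
open Vale.Agent.P014U.Pp (Vn)

variable [Pp] {R : Type} [CommRing R] {k l : ℕ} {T : Finset ℕ} {a : GQ →* M2 R}
  {P : Ideal (𝓞 Qb)} {φ s : GQ} {η : R}

omit [Pp] in
theorem Vn_dvd {a : GQ → M2 R} {η' : R} (h : Vn a η P) (d : η ∣ η') : Vn a η' P := by
  obtain ⟨t, rfl⟩ := d
  intro M _ _ T c x hx
  obtain ⟨m, e⟩ := h M T c x hx
  exact ⟨t • m, fun g hg => by rw [mul_comm, mul_smul, e g hg, ac_smul]⟩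

/-- **an unramified prime** -/
theorem vnu [Finite R] (h0 : (pp : R) ^ k = 0) (G : Gd ⊤ T a) (o : Ov l P) (l2 : l ≠ pp)
    (f : Fb l P φ) (u : ∀ i, Inert P i → a i = 1)
    (hη : (a φ - 1).det * (a φ - (l : M2 R)).det ∣ η) : Vn a η P := by
  refine Vn_dvd (fun M _ _ T' c x hx => ?_) hη
  obtain ⟨t, ht⟩ := ex_gn o l2
  obtain ⟨b, B⟩ := Tm.tp h0 G (⟨o, l2, f, ht, fun g m => ⟨0, by rw [pow_zero, pow_one, u g m]⟩⟩ :
    Tm a l P φ t)
  obtain ⟨W, hW, w⟩ := hx.2.1
  obtain ⟨Z, hZ, z⟩ := G.lc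
  have e1 : (a φ - (l : M2 R)).det • x t = 0 := by
    refine det_kill ?_
    have := (B.un M x (fun g _ h _ => hx.1 g h) ⟨W, hW, fun g _ m => w g m⟩).1
    rw [P004F.Nt, u t ht.1] at this
    funext i
    have := congrFun this i
    simpa [ac, Fintype.sum_sum_type] using this
  let m := (a φ - (l : M2 R)).det • ac (a φ - 1).adjugate (x φ)
  refine ⟨m, fun g hg => ?_⟩
  have := (B.un M (fun g => ((a φ - 1).det * (a φ - (l : M2 R)).det) • x g - ac (a g - 1) m)
    (fun g _ h _ => by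
      simp only [hx.1 g h, ac_s1, map_mul, ac_mul, ac_sub, ac_smul, smul_add]
      abel)
    ⟨W ⊓ Z, hW.inter hZ, fun g _ m => by
      rw [w g m.1, z g trivial m.2, ac_s1, ac_one, sub_self, smul_zero, sub_zero]⟩).2 g ⟨trivial, hg⟩
  rw [mul_smul _ _ (x t), e1, smul_zero, u t ht.1, ac_s1 1, ac_one, sub_self, sub_zero,
    show ac (a φ - 1) m = ((a φ - 1).det * (a φ - (l : M2 R)).det) • x φ by
      rw [ac_smul, ← ac_mul, mul_adjugate, ac_sm, ac_one, smul_smul, mul_comm],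
    sub_self, Sum.elim_zero_zero, ac_zero] at this
  exact sub_eq_zero.1 this

/-- **an element of the inertia group** -/
theorem vni (h0 : (pp : R) ^ k = 0) (G : Gd ⊤ T a) (o : Ov l P) (l2 : l ≠ pp) (i : Inert P s)
    (hη : (a s - 1).det ^ 3 ∣ η) : Vn a η P := by
  refine Vn_dvd (fun M _ _ T' c x hx => ?_) hη
  have un : IsUnit (l : R) := by
    obtain ⟨y, z, e⟩ : IsCoprime (l : ℤ) ((pp : ℤ) ^ k) := IsCoprime.pow_right
      (Nat.isCoprime_iff_coprime.2 ((Nat.coprime_primes o.1 Pp.prime).2 l2))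
    have := congrArg (Int.cast (R := R)) e
    push_cast at this
    rw [h0, mul_zero, add_zero] at this
    exact IsUnit.of_mul_eq_one_right _ this
  exact Pp.Vn.van0 a o un (G.lc.imp fun W e => ⟨e.1, fun w m => e.2 w trivial m⟩) i o hx.1 hx.2.1

end Vale.Agent.P014X.Dv
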