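import Vale.Agent.P014X.Dv.St
import Vale.Agent.P014X.Dv.Vnu
import Vale.Agent.P014U.Pp.Van
import Vale.Agent.P014U.Pp.Lmx

/-! # P014X, block DVO: the row `VAN` -/

set_option autoImplicit false
set_option linter.all false

open NumberField Matrix Filter
open scoped Classical

noncomputable section

namespace Vale.Agent.P014X.Dv

open Vale.Agent.P022 (Qb GQ)
open Vale.Agent.P027M.S (Inert)
open Vale.Agent.P022E.GW (Ov Fb)
open Vale.Agent.P014U
open Vale.Agent.P014U.Kq (M2)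
open Vale.Agent.P014U.Pq (Gd)
open Vale.Agent.P014U.X4S.Aq (cz)
open Vale.Agent.P014U.Pp (Vn)
open Vale.Agent.P014U.Pp.Vn (cz_in)
open Vale.Agent.P014U.Pp.Lx (two_zero)

namespace Va

section

variable {a b : ℤ} {R : Type} [CommRing R]

theorem det_mm (x : Qa a b R) : (mm x).det = x.norm := by
  simp [mm, det_fin_two, QuadraticAlgebra.norm_def]
  ring

theorem mm_sub (x : Qa a b R) (r : R) : mm x - r • (1 : M2 R) = mm (x - algebraMap R _ r) := by
  ext i j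
  fin_cases i <;> fin_cases j <;> simp [mm] <;> ring

theorem det_one' (x : Qa a b R) : (mm x - 1).det = (x - 1).norm := by
  rw [← det_mm, ← map_one (algebraMap R (Qa a b R)), ← mm_sub, one_smul]

theorem det_sc' (x : Qa a b R) (r : R) : (mm (r • x) - r • (1 : M2 R)).det = r ^ 2 * (x - 1).norm := by
  rw [mm_sub, det_mm]
  simp [QuadraticAlgebra.norm_def, QuadraticAlgebra.re_one, QuadraticAlgebra.im_one]
  ring

theorem nat_out {l n : ℕ} {P : Ideal (𝓞 Qb)} (o : Ov l P) (h : ¬ l ∣ n) : (n : 𝓞 Qb) ∉ P := fun m => by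
  obtain ⟨x, y, e⟩ : IsCoprime (l : 𝓞 Qb) n := ((Nat.Prime.coprime_iff_not_dvd o.1).2 h).cast
  exact o.2.1.ne_top ((Ideal.eq_top_iff_one P).2
    (e ▸ add_mem (P.mul_mem_left x o.2.2) (P.mul_mem_left y m)))

theorem in_hm {A B : ℤ} {D : Cd A B} (F : D.Cf) {l : ℕ} {P : Ideal (𝓞 Qb)} {m : D.O} (o : Ov l P)
    {i : GQ} (g : i ∈ D.G) (h : Inert P i) (m0 : m ≠ 0) (n : D.j m ∉ P) : i ∈ D.Hm m := by
  obtain ⟨π, p, c, -⟩ := F.bel l P o
  obtain ⟨ζ, u, t⟩ := F.mt π P 0 i ⟨p, o.2.1, c, g, fun x => by simpa using h x⟩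
  have := D.pid
  have : IsDomain D.O := D.inj.isDomain D.j
  have k : IsCoprime m π := (p.irreducible.coprime_iff_not_dvd.2 fun ⟨_, e⟩ => n (by
    rw [e, map_mul]; exact P.mul_mem_right _ c)).symm
  exact (F.hm m m0 i).2 ⟨ζ, u, by simpa using t m m0 k⟩

end

variable [Pp] {A B : ℤ} {D : Cd A B} {k : ℕ} {C : Cr k} {a b : ℤ} {O : Type} [CommRing O]
  (p : Pe D C a b O)

theorem cs_in {l : ℕ} {P : Ideal (𝓞 Qb)} {i : GQ} (o : Ov l P) (l2 : l ≠ pp) (h : Inert P i) :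
    cs C i = 1 := by rw [cs, cz_in o l2 h, map_one]

theorem cs_unit (g : GQ) : IsUnit (cs C g) := (cz g).isUnit.map _

/-- the levels are unramified outside the bad set -/
theorem unr (j : ℕ) {l : ℕ} {P : Ideal (𝓞 Qb)} {φ i : GQ} (o : Ov l P) (f : Fb l P φ)
    (n : l ∉ Sb p.M) (h : Inert P i) : p.rj j p.ρ i = 1 := by
  have l2 : l ≠ pp := fun e => n (e ▸ Finset.mem_insert_self _ _)
  have g : i ∈ D.G := (p.cf.spl l P φ o (fun d => n (p.fm.disc l o.1 d)) f).1 i h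
  obtain ⟨m, t⟩ := p.gf.tr j
  have d : ¬ l ∣ p.M * pp ^ m := fun d => (o.1.dvd_mul.1 d).elim
    (fun d => n (Finset.mem_insert_of_mem (Nat.mem_primeFactors.2 ⟨o.1, d, p.fm.ne⟩)))
    (Dr.nd_two o l2 m)
  have z := nat_out o d
  have e := t ⟨i, g⟩ (in_hm p.cf o g h (fun e => z (by
    rw [← map_natCast D.j, show ((p.M * pp ^ m : ℕ) : D.O) = 0 from e, map_zero]
    exact zero_mem P)) (by rwa [map_natCast]))
  have e1 : p.t.i j (p.χ ⟨i, g⟩).re = 1 := congrArg QuadraticAlgebra.re e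
  have e2 : p.t.i j (p.χ ⟨i, g⟩).im = 0 := congrArg QuadraticAlgebra.im e
  show (p.ρ (⟨i, g⟩ : D.G)).map (p.t.i j) = 1
  rw [p.hρ, cs_in o l2 h, one_smul]
  ext x y
  fin_cases x <;> fin_cases y <;> simp [mm, e1, e2]

theorem det_map (j : ℕ) (X : M2 C.R) (r : C.R) :
    (X.map (p.t.i j) - p.t.i j r • (1 : M2 _)).det = p.t.i j (X - r • (1 : M2 _)).det := by
  rw [RingHom.map_det]
  simp [det_fin_two]

end Va

open Va

variable [Pp]

/-- **row VAN** -/
theorem van (gl0 : GL0) : VAN := by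
  intro A B D k C a b O _ p
  refine ⟨fun j => p.t.i j (cs C p.g ^ 2 * D.nn p.χ p.g), ?_, ?_⟩
  · show IsUnit (p.φ (p.t.lim fun j => p.t.i j _))
    rw [p.t.id, map_mul]
    exact (((cs_unit p.g).pow 2).map _).mul p.ug
  filter_upwards [(gl0 A B D k C a b O p).lv] with j lv l hl l2 ne
  have G : Gd ⊤ (Sb p.M ∪ {p.q j}) (p.rj j p.ρ) := lv.gd
  have h0 := two_zero (p.t.f j)
  rcases Finset.mem_union.1 hl with m | m
  · have m := (Finset.mem_insert.1 m).resolve_left l2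
    obtain ⟨P, i, o, h, u⟩ : L1 D p.χ l := by
      by_contra n
      exact ne ⟨l, Finset.mem_filter.2 ⟨m, n⟩⟩ rfl
    refine ⟨P, o, vni (a := p.rj j p.ρ) h0 G o l2 h (IsUnit.dvd (IsUnit.pow 3 ?_))⟩
    have := det_map p j (p.ρ i) 1
    rw [map_one, one_smul, one_smul] at this
    refine this ▸ IsUnit.map _ ?_
    rw [p.hρ, cs_in o l2 h, one_smul, det_one']
    exact u.map QuadraticAlgebra.norm
  · obtain rfl := Finset.mem_singleton.1 m
    refine ⟨p.Q j, p.oq j, vnu (a := p.rj j p.ρ) h0 G (p.oq j) l2 (p.fq j)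
      (fun i h => unr p j (p.oq j) (p.fq j) (p.nq j) h) (dvd_of_eq ?_)⟩
    have e1 := det_map p j (p.ρ p.g) 1
    have e2 := det_map p j (p.ρ p.g) (cs C p.g)
    rw [map_one, one_smul, one_smul] at e1
    rw [show p.rj j p.ρ (p.F j) = (p.ρ p.g).map (p.t.i j) from p.e1 j,
      show ((p.q j : ℕ) : M2 (p.t.L j)) = p.t.i j (cs C p.g) • (1 : M2 _) by
        rw [← p.e3, Nat.cast_smul_eq_nsmul, nsmul_one], e1, e2, ← map_mul, p.hρ, det_one', det_sc']
    refine congrArg _ ?_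
    rw [Cd.nn]
    ring

end Vale.Agent.P014X.Dv
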