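import Vale.Agent.P014X.Dv.Kit
import Vale.Agent.P014X.Dv.Van
import Vale.Agent.P014T.Pp.G2a
import Vale.Agent.P014U.Pg.Bas

/-! # P014X, block DVO: the row `GLA` (helper5) -/

set_option autoImplicit false
set_option linter.all false

open NumberField Matrix
open scoped Classical

noncomputable section

namespace Vale.Agent.P014X.Dv

open Vale.Agent.P022 (Qb GQ)
open Vale.Agent.P014U
open Vale.Agent.P014U.Kq (M2)
open Vale.Agent.P014U.X4F (Nt)
open Vale.Agent.P014U.X4S.Aq (cz)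
open Vale.Agent.P014T.Pp.G2 (nt_map det_r det_u mem_I2)
open Kit

namespace Gla

theorem sq_mem {A B : ℤ} {D : Cd A B} (F : D.Cf) (g : GQ) : g * g ∈ D.G := by
  by_cases h : g ∈ D.G
  · exact mul_mem h h
  by_contra n
  have := mul_mem ((F.cG _).1 n) (inv_mem ((F.cG _).1 h))
  rw [mul_assoc g g, mul_inv_cancel_right] at this
  exact h this

theorem det_sq {R : Type} [CommRing R] {X : M2 R} {r : R} (h : (X * X - (r * r) • 1).det ≠ 0) :
    (X - r • 1).det ≠ 0 := fun z => h (by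
  rw [show X * X - (r * r) • 1 = (X - r • 1) * (X + r • 1) by
    simp only [sub_mul, mul_add, smul_mul_assoc, mul_smul_comm, one_mul, mul_one, smul_smul, smul_sub]
    abel, det_mul, z, zero_mul])

theorem nt_one {R : Type} [CommRing R] (X : M2 R) (l : ℕ) :
    Nt X 1 l = fromCols 0 (X - (l : R) • 1) := by
  simp [P004F.Nt, Nat.cast_smul_eq_nsmul]

variable [Pp] {A B : ℤ} {D : Cd A B} {k : ℕ} {C : Cr k} {a b : ℤ} {O : Type} [CommRing O]
  (p : Pe D C a b O)

/-- three determinants at an element whose cyclotomic value has infinite order -/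
theorem dets (g : D.G) (h : ¬ IsOfFinOrder (cz g)) : (p.ρ g - cs C g • 1).det ≠ 0 ∧
    (p.ρ g - 1).det ≠ 0 ∧ (p.ρ' g - cs C g • 1).det ≠ 0 := by
  have n : D.nn p.χ g ≠ 0 := fun z => p.gf.mu g h (z ▸ dvd_zero _)
  refine ⟨?_, ?_, fun z => right_ne_zero_of_mul n ?_⟩
  · rw [p.hρ, Va.det_sc']
    exact mul_ne_zero ((Va.cs_unit g).pow 2).ne_zero (left_ne_zero_of_mul n)
  · rw [p.hρ, Va.det_one']
    exact right_ne_zero_of_mul n
  · rw [p.hρ', Va.mm_sub, det_mm, ← star_alg, ← star_sub, QuadraticAlgebra.norm_star] at z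
    rw [← QuadraticAlgebra.norm_neg, show -(cs C g • p.χ g - 1) =
      p.χ g * (p.χ g⁻¹ - algebraMap _ _ (cs C g)) by
        rw [mul_sub, ← map_mul, mul_inv_cancel, map_one, Algebra.smul_def]; ring, map_mul, z, mul_zero]

theorem nt_lim (r : GQ →* M2 C.R) (s t : GQ) (l : ℕ) :
    P004F.Pat.lm p.fk.ψ (fun j => Nt (p.rj j r s) (p.rj j r t) l) = (Nt (r s) (r t) l).map p.φ :=
  (congrArg _ (funext fun j => (nt_map (p.t.i j) _ _ _).symm)).trans (lm_map p _)

end Gla

open Gla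

variable [Pp]

/-- **row GLA** -/
theorem gla : GLA := fun A B D k C a b O _ _ p y h => by
  have hl := Nat.prime_of_mem_primeFactors (Finset.mem_filter.1 y.2).1
  have o := p.pl.ov y hl
  have t := (p.pl.gn y hl (σ_ne p y)).1
  obtain ⟨m, e⟩ := h _ _ o t
  have r1 : p.ρ (p.pl.τ y) = 1 := by
    rw [p.hρ ⟨_, m⟩, e, Va.cs_in o (σ_ne p y) t, one_smul, Fm.Ind.mm_one]
  have r2 : p.ρ' (p.pl.τ y) = 1 := by
    rw [p.hρ' ⟨_, m⟩, ← mul_one (p.χ _), ← e, ← map_mul, inv_mul_cancel, map_one, star_one,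
      Fm.Ind.mm_one]
  have c : (cz (p.pl.σ y * p.pl.σ y) : ℤ_[pp]) = (y : ℕ) * (y : ℕ) := by
    rw [map_mul, Units.val_mul, Pg.cz_fb o (σ_ne p y) (p.pl.fb y hl)]
  obtain ⟨d1, d2, d3⟩ := dets p ⟨_, sq_mem p.cf (p.pl.σ y)⟩ fun f => by
    obtain ⟨n, n0, z⟩ := f.exists_pow_eq_one
    have := congrArg (fun u : ℤ_[pp]ˣ => (u : ℤ_[pp])) z
    simp only [Units.val_pow_eq_pow_val, c, Units.val_one] at this
    have : (y * y : ℕ) ^ n = 1 := by exact_mod_cast this
    exact hl.ne_one (by simpa [n0.ne'] using this)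
  simp only [cs, c] at d1 d3
  simp only [map_mul, map_natCast] at d1 d2 d3
  have i {X : M2 C.R} (d : X.det ≠ 0) : (X.map p.φ).det ≠ 0 := by
    rw [← RingHom.mapMatrix_apply, ← RingHom.map_det]
    exact (map_ne_zero_iff _ p.inj).2 d
  have q : p.P y = (p.ρ (p.pl.σ y) - ((y : ℕ) : C.R) • 1).det := by
    rw [Pe.P, if_pos h, Nat.cast_smul_eq_nsmul, nsmul_one]
  refine ⟨(map_ne_zero_iff _ p.inj).2 (q ▸ det_sq d1), Ideal.subset_span ⟨fromRows 0 1, ?_⟩,
    ⟨fromRows 0 1, ?_⟩, fromCols 1 0, ?_⟩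
  · dsimp only
    rw [show p.fk.G.N y = _ from nt_lim p p.ρ _ _ _, r1, nt_one, fromCols_map,
      Matrix.map_zero _ (map_zero _), det_r, q, RingHom.map_det, RingHom.mapMatrix_apply]
  · rw [show p.fk.G'.N y = _ from nt_lim p p.ρ' _ _ _, r2, nt_one, fromCols_map,
      Matrix.map_zero _ (map_zero _), det_r]
    exact i (det_sq d3)
  · rw [det_u, show p.fk.G.ρ _ = _ from lm_map p (p.ρ (p.pl.σ y))]
    have := i (det_sq (r := 1) (by simpa using d2))
    rwa [one_smul, Matrix.map_sub _ (map_sub _), Matrix.map_one _ (map_zero _) (map_one _)] at this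

end Vale.Agent.P014X.Dv
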