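import Vale.Agent.P014X.Dv.Van
import Vale.Agent.P014X.Fm.Crk
import Vale.Agent.P014X.Eu.Es
import Vale.Agent.P014X.Fm.Psi
import Vale.Agent.P014U.X4F.Lt.Grp
import Vale.Agent.P014U.Pg.Bas

/-! # P014X, block DVO: the row `GLB` (helper35) -/

set_option autoImplicit false
set_option linter.all false

open NumberField Matrix Filter IsLocalRing QuadraticAlgebra
open scoped Classical

noncomputable section

namespace Vale.Agent.P014X.Dv

open Vale.Agent.P022 (Qb GQ)
open Vale.Agent.P027M.S (Inert)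
open Vale.Agent.P022E.GW (Ov Fb)
open Vale.Agent.P014U
open Vale.Agent.P014U.Kq (M2 F4)
open Vale.Agent.P014U.X4F (Nt)
open Vale.Agent.P014U.X4S.Aq (cz)
open Vale.Agent.P004F.Pat (lm)
open Va

namespace Glb

section

variable {a b : ℤ} {R S : Type} [CommRing R] [CommRing S]

/-- the multiplication matrix is a homomorphism -/
def mh (a b : ℤ) (R : Type) [CommRing R] : Qa a b R →+* M2 R where
  toFun := mm
  map_one' := by ext i j; fin_cases i <;> fin_cases j <;> simp [mm, re_one, im_one]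
  map_zero' := by ext i j; fin_cases i <;> fin_cases j <;> simp [mm]
  map_add' x y := by ext i j; fin_cases i <;> fin_cases j <;> simp [mm] <;> ring
  map_mul' x y := by ext i j; fin_cases i <;> fin_cases j <;> simp [mm] <;> ring

theorem norm_qm (f : R →+* S) (x : Qa a b R) : (qm a b f x).norm = f x.norm := by
  simp [QuadraticAlgebra.norm_def, qm]

theorem Nt_map (f : R →+* S) (X U : M2 R) (l : ℕ) :
    Nt (X.map f) (U.map f) l = (Nt X U l).map f := by
  have e (Y : M2 R) : Y.map f = f.mapMatrix Y := rfl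
  simp only [P004F.Nt, fromCols_map, e, map_sub, map_pow, map_sum, map_one]

theorem Nt_l (X U : M2 R) (l : ℕ) : Nt X U l * fromRows (1 : M2 R) (0 : M2 R) = 1 - U ^ l := by
  simp [P004F.Nt, fromCols_mul_fromRows]

theorem Nt_r (X U : M2 R) (l : ℕ) :
    Nt X U l * fromRows (0 : M2 R) (1 : M2 R) = X - ∑ i ∈ Finset.range l, U ^ i := by
  simp [P004F.Nt, fromCols_mul_fromRows]

theorem det_l (x : Qa a b R) (l : ℕ) : (1 - mm x ^ l).det = (x ^ l - 1).norm := by
  have : mm x ^ l = mm (x ^ l) := (map_pow (mh a b R) x l).symm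
  rw [this, ← neg_sub, det_neg, det_one']
  simp

theorem nm_pow {x : Qa a b R} {p l : ℕ} (h : x ^ p = 1) (c : l.Coprime p) (p1 : 1 < p) :
    (x ^ l - 1).norm ∣ (x - 1).norm := by
  obtain ⟨m, -, e⟩ := Nat.exists_mul_mod_eq_one_of_coprime c p1
  have : x = (x ^ l) ^ m := by rw [← pow_mul, pow_eq_pow_mod _ h, e, pow_one]
  conv_rhs => rw [this]
  exact map_dvd _ (sub_one_dvd_pow_sub_one _ _)

theorem one_of [IsDomain R] (f : R →+* S) {x : Qa a b R} {p : ℕ} (h : x ^ p = 1)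
    (e : qm a b f x = 1) (n : (p : S) ^ 2 ≠ 0) : x = 1 := by
  have s := geom_sum_mul x p
  rw [h, sub_self] at s
  have k : (∑ i ∈ Finset.range p, x ^ i).norm ≠ 0 := fun z => n (by
    have := norm_qm f (∑ i ∈ Finset.range p, x ^ i)
    rw [z, map_zero, map_sum] at this
    simpa [e] using this)
  have t : (∑ i ∈ Finset.range p, x ^ i).norm • (x - 1) = 0 := by
    rw [Algebra.smul_def, algebraMap_norm_eq_mul_star, mul_right_comm, s, zero_mul]
  exact sub_eq_zero.1 (QuadraticAlgebra.ext ((mul_eq_zero.1 (congrArg re t)).resolve_left k)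
    ((mul_eq_zero.1 (congrArg im t)).resolve_left k))

/-- roots of unity of order `p` are trivial in characteristic `p` -/
theorem one_res [IsDomain S] (f : R →+* S) {w : S} (hw : w * w = a + b * w)
    (u : (b ^ 2 + 4 * a : S) ≠ 0) {x : Qa a b R} {p : ℕ} (hp : p.Prime) (z : (p : S) = 0)
    (h : x ^ p = 1) : (mm x).map f = 1 := by
  have k (y : Qa a b R) (h : y ^ p = 1) : f y.re + f y.im * w = 1 := by
    show qe f w hw y = 1
    obtain ⟨r, hr⟩ := exists_add_pow_prime_eq hp (qe f w hw y - 1) 1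
    rw [sub_add_cancel, ← map_pow, h, map_one, z, one_pow] at hr
    exact sub_eq_zero.1 (pow_eq_zero_iff hp.ne_zero |>.1 (by linear_combination -hr))
  have k1 := k x h
  have k2 := k (star x) (by rw [← star_pow, h, star_one])
  simp only [re_star, im_star, map_add, map_mul, map_neg, map_intCast] at k2
  have e2 : f x.im = 0 := (mul_eq_zero.1 (show (b ^ 2 + 4 * a : S) * f x.im = 0 by
    linear_combination (2 * w - b) * (k1 - k2) - 4 * f x.im * hw)).resolve_left u
  have e1 : f x.re = 1 := by simpa [e2] using k1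
  ext i j
  fin_cases i <;> fin_cases j <;> simp [mm, e1, e2]

end

theorem sq_mem {A B : ℤ} {D : Cd A B} (F : D.Cf) (g : GQ) : g * g ∈ D.G := by
  by_cases h : g ∈ D.G
  · exact mul_mem h h
  · rw [D.mem, mul_smul, F.cj g h, F.cj g h, star_star]

variable [Pp]

theorem sep {R : Type} [CommRing R] [IsLocalRing R] [IsNoetherianRing R] (t : Tl R) {y : R}
    (h : ∀ j, t.i j y = 0) : y = 0 := by
  rw [← Ideal.mem_bot, ← Ideal.iInf_pow_eq_bot_of_isLocalRing _ (maximalIdeal.isMaximal R).ne_top,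
    Ideal.mem_iInf]
  exact fun j => Ideal.pow_le_pow_right j.le_succ ((t.ker j y).1 (h j))

variable {k : ℕ} {C : Cr k}

theorem p0 : (pp : C.R) ≠ 0 := fun h => C.p0 (by simpa using congrArg PowerSeries.constantCoeff h)

/-- the point which contains the prime -/
theorem unit_of {O : Type} [CommRing O] [IsLocalRing O] (φ : C.R →+* O)
    (nu : ∃ x, ¬ IsUnit x ∧ IsUnit (φ x)) (h : ¬ IsUnit (φ (PowerSeries.C (C.pb.gen - 1))))
    {y : C.R} (n : ¬ PowerSeries.C (C.pb.gen - 1) ∣ y) : IsUnit (φ y) := by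
  have ad {u v : O} (a : IsUnit u) (b : ¬ IsUnit v) : IsUnit (u + v) := by
    by_contra c
    have := sub_mem ((mem_maximalIdeal _).2 c) ((mem_maximalIdeal _).2 b)
    rw [add_sub_cancel_right] at this
    exact (mem_maximalIdeal _).1 this a
  have hw (z : C.R) : ¬ IsUnit (φ (PowerSeries.C (C.pb.gen - 1) * z)) := fun c =>
    h (isUnit_of_mul_isUnit_left (map_mul φ _ _ ▸ c))
  have X : IsUnit (φ PowerSeries.X) := by
    obtain ⟨x, a, b⟩ := nu
    by_contra c
    obtain ⟨d, e⟩ := (C.nu_iff _).1 (mt PowerSeries.isUnit_iff_constantCoeff.2 a)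
    rw [PowerSeries.eq_X_mul_shift_add_const x, e, map_mul, map_add] at b
    refine (mem_maximalIdeal _).1 (add_mem ((mem_maximalIdeal _).2 fun c' => c ?_)
      ((mem_maximalIdeal _).2 (hw _))) b
    exact isUnit_of_mul_isUnit_left (map_mul φ _ _ ▸ c')
  have ex : ∃ i, ¬ C.pb.gen - 1 ∣ PowerSeries.coeff i y := by
    by_contra c
    push Not at c
    choose z e using c
    exact n ⟨PowerSeries.mk z, PowerSeries.ext fun i => by
      rw [PowerSeries.coeff_C_mul, PowerSeries.coeff_mk, e]⟩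
  have lo (i : ℕ) : ∃ z, i < Nat.find ex → PowerSeries.coeff i y = (C.pb.gen - 1) * z := by
    by_cases c : i < Nat.find ex
    · exact (not_not.1 (Nat.find_min ex c)).imp fun _ e _ => e
    · exact ⟨0, fun d => absurd d c⟩
  choose z e using lo
  have s : y = PowerSeries.X ^ Nat.find ex * PowerSeries.mk (fun i => PowerSeries.coeff (i + Nat.find ex) y) +
      PowerSeries.C (C.pb.gen - 1) * PowerSeries.mk fun i => if i < Nat.find ex then z i else 0 := by
    ext i
    rw [map_add, PowerSeries.coeff_X_pow_mul', PowerSeries.coeff_C_mul, PowerSeries.coeff_mk,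
      PowerSeries.coeff_mk]
    by_cases c : Nat.find ex ≤ i
    · rw [if_pos c, if_neg (not_lt.2 c), Nat.sub_add_cancel c, mul_zero, add_zero]
    · rw [if_neg c, if_pos (not_le.1 c), zero_add, e i (not_le.1 c)]
  rw [s, map_add]
  refine ad ?_ (hw _)
  rw [map_mul, map_pow]
  refine (X.pow _).mul (IsUnit.map φ (PowerSeries.isUnit_iff_constantCoeff.2 ?_))
  simpa using not_not.1 (mt (C.nu_iff _).1 (Nat.find_spec ex))

variable {A B : ℤ} {D : Cd A B} {a b : ℤ} {O : Type} [CommRing O] (p : Pe D C a b O)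

theorem lm_i {m n : Type} (X : Matrix m n C.R) :
    lm p.fk.ψ (fun j => X.map (p.t.i j)) = X.map p.φ :=
  Matrix.ext fun x y => congrArg p.φ (p.t.id (X x y))

theorem N_eq (y : p.σ) : p.fk.G.N y = (Nt (p.ρ (p.pl.σ y)) (p.ρ (p.pl.τ y)) y).map p.φ :=
  (congrArg (lm p.fk.ψ) (funext fun j => Nt_map (p.t.i j) _ _ _)).trans (lm_i p _)

theorem N_eq' (y : p.σ) : p.fk.G'.N y = (Nt (p.ρ' (p.pl.σ y)) (p.ρ' (p.pl.τ y)) y).map p.φ :=
  (congrArg (lm p.fk.ψ) (funext fun j => Nt_map (p.t.i j) _ _ _)).trans (lm_i p _)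

theorem ρ_eq (g : GQ) : p.fk.G.ρ (fun _ => g) = (p.ρ g).map p.φ := lm_i p _

theorem pr (y : p.σ) : y.1.Prime ∧ y.1 ≠ pp ∧ y.1 ∈ p.M.primeFactors ∧ ¬ L1 D p.χ y := by
  obtain ⟨m, n⟩ := Finset.mem_filter.1 y.2
  exact ⟨Nat.prime_of_mem_primeFactors m, fun e => p.fm.cop (e ▸ Nat.dvd_of_mem_primeFactors m), m, n⟩

/-- the Euler factor is not divisible by the uniformiser -/
theorem eul {l : ℕ} {P : Ideal (𝓞 Qb)} {g : GQ} (o : Ov l P) (l2 : l ≠ pp) (f : Fb l P g) :
    ¬ PowerSeries.C (C.pb.gen - 1) ∣ (p.ρ g - (l : M2 C.R)).det := fun d => by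
  have c := Pg.cz_fb o l2 f
  have u : IsUnit (l : C.R) := by simpa [cs, c] using cs_unit (C := C) g
  refine p.gf.mu ⟨g * g, sq_mem p.cf g⟩ (fun h => ?_) (Dvd.dvd.mul_right ?_ _)
  · obtain ⟨n, n0, e⟩ := isOfFinOrder_iff_pow_eq_one.1 h
    have := congrArg Units.val e
    rw [map_mul, Units.val_pow_eq_pow_val, Units.val_mul, c, Units.val_one] at this
    exact absurd (Nat.one_lt_pow n0.ne' (one_lt_mul'' o.1.one_lt o.1.one_lt)).ne'
      (not_not.2 (by exact_mod_cast this))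
  · have e := p.hρ ⟨g * g, sq_mem p.cf g⟩
    have e2 : cs C (g * g) = l ^ 2 := by simp [cs, c, sq]
    rw [← (u.pow 4).dvd_mul_left, show (l : C.R) ^ 4 = (l ^ 2) ^ 2 by ring, ← det_sc', ← e2, ← e, e2,
      map_mul, show p.ρ g * p.ρ g - (l : C.R) ^ 2 • (1 : M2 C.R) = (p.ρ g - l) * (p.ρ g + l) by
        rw [sub_mul, mul_add, mul_add, (Nat.cast_commute l _).eq, ← Nat.cast_pow,
          Nat.cast_smul_eq_nsmul, nsmul_one, Nat.cast_pow, sq]
        abel, det_mul]
    exact d.mul_right _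

/-- the value at the tame generator -/
theorem tau (y : p.σ) (n : ¬ L2 D p.χ y) : ∃ h : p.pl.τ y ∈ D.G,
    p.χ ⟨_, h⟩ ^ pp = 1 ∧ (p.χ ⟨_, h⟩ - 1).norm ∣ pp := by
  obtain ⟨l1, l2, m, n1⟩ := pr p y
  obtain ⟨h1, h2⟩ := ((p.gf.loc y m).resolve_left n1).resolve_left n
  have o := p.pl.ov y l1
  have t := p.pl.gn y l1 l2
  obtain ⟨h, e⟩ := h1 _ _ o t.1
  obtain ⟨i, hi, d⟩ := h2 _ o
  refine ⟨h, e, Dvd.dvd.trans ?_ d⟩
  obtain ⟨j, hj⟩ : ∃ j, p.t.i j ((pp : C.R) ^ 2) ≠ 0 :=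
    not_forall.1 fun c => pow_ne_zero 2 p0 (sep p.t c)
  obtain ⟨r, tr⟩ := p.gf.tr j
  have := NeZero.mk pp_ne
  let f (g : GQ) : Additive (rootsOfUnity pp (Qa a b C.R)) :=
    if c : Inert (p.pl.P y) g then Additive.ofMul (rootsOfUnity.mkOfPowEq _ (h1 _ _ o c).2) else 0
  have v (g : GQ) (c : Inert (p.pl.P y) g) (m : g ∈ D.G) :
      (((f g).toMul : (Qa a b C.R)ˣ) : Qa a b C.R) = p.χ ⟨g, m⟩ := by
    simp only [f, dif_pos c]
    rfl
  obtain ⟨s, hs⟩ := X4F.Lt.lt1 o 1 l2 t hi (Ev.hm_op p.cf (m := D.mp p.M r)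
    (Fm.Psi.nat_ne (mul_ne_zero p.fm.ne (pow_ne_zero _ pp_ne))))
  have := hs _ f (fun x => Additive.toMul.injective (Subtype.ext (by simpa using (mem_rootsOfUnity _ _).1 x.toMul.2)))
    (fun g c m => Additive.toMul.injective (Subtype.ext (Units.ext ((v g c (h1 _ _ o c).1).trans
      (one_of (p.t.i j) (h1 _ _ o c).2 (tr _ m) (by simpa using hj))))))
    fun g g' c c' => Additive.toMul.injective (Subtype.ext (Units.ext (by
      have c2 : Inert (p.pl.P y) (g * g') := P004S.inert_mul c c'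
      rw [v _ c2 (mul_mem (h1 _ _ o c).1 (h1 _ _ o c').1), toMul_add, Subgroup.coe_mul, Units.val_mul,
        v _ c (h1 _ _ o c).1, v _ c' (h1 _ _ o c').1, ← map_mul]
      rfl)))
  have e2 := v i hi i.2
  rw [this, toMul_nsmul, SubgroupClass.coe_pow, Units.val_pow_eq_pow_val, v _ t.1 h] at e2
  rw [show p.χ i = _ from e2.symm]
  exact map_dvd _ (sub_one_dvd_pow_sub_one _ _)

end Glb

open Glb

variable [Pp]

/-- **row GLB** -/
theorem glb : GLB := by
  intro A B D k C a b O _ _ _ p y n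
  obtain ⟨l1, l2, -, -⟩ := pr p y
  obtain ⟨h, e, d⟩ := tau p y n
  have o := p.pl.ov y l1
  have c : y.1.Coprime pp := (Nat.coprime_primes l1 pp_prime).2 l2
  have r : p.ρ (p.pl.τ y) = mm (p.χ ⟨_, h⟩) := by
    rw [p.hρ ⟨_, h⟩, cs_in o l2 (p.pl.gn y l1 l2).1, one_smul]
  have nz {z : C.R} (d : z ∣ pp) : p.φ z ≠ 0 := fun e =>
    p0 (zero_dvd_iff.1 ((map_eq_zero_iff _ p.inj).1 e ▸ d))
  have E (X : Matrix (Fin 2) F4 C.R) (Y : Matrix F4 (Fin 2) C.R) :
      (X.map p.φ * Y.map p.φ).det = p.φ (X * Y).det := by rw [← Matrix.map_mul, RingHom.map_det]; rfl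
  have P1 : p.P y = 1 := if_neg n
  refine ⟨by rw [P1, map_one]; exact one_ne_zero, ?_, ⟨(fromRows (1 : M2 _) (0 : M2 _)).map p.φ, ?_⟩,
    (fromCols (0 : M2 _) (1 : M2 _)).map p.φ, ?_⟩
  · suffices ∃ Y : Matrix F4 (Fin 2) C.R, IsUnit (p.φ (Nt (p.ρ (p.pl.σ y)) (p.ρ (p.pl.τ y)) y * Y).det) by
      obtain ⟨Y, u⟩ := this
      rw [← E, ← N_eq] at u
      rw [Ideal.eq_top_of_isUnit_mem _ (Ideal.subset_span (Set.mem_range_self (Y.map p.φ))) u]
      trivial
    by_cases u : IsUnit (p.φ pp)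
    · exact ⟨fromRows (1 : M2 _) (0 : M2 _), by
        rw [Nt_l, r, det_l]
        exact isUnit_of_dvd_unit (map_dvd _ ((nm_pow e c one_lt).trans d)) u⟩
    refine ⟨fromRows (0 : M2 _) (1 : M2 _), ?_⟩
    have w : ¬ IsUnit (p.φ (PowerSeries.C (C.pb.gen - 1))) := fun w => u (by
      have := (C.ass.map (p.φ.comp PowerSeries.C)).isUnit (by rw [map_pow]; exact w.pow _)
      simpa using this)
    have u2 := (unit_of p.φ p.nu w (eul p o l2 (p.pl.fb y l1))).map (residue O)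
    have k := one_res ((residue O).comp p.φ) (w := residue O p.w)
      (by simpa using congrArg (residue O) p.hw)
      (by simpa [map_ofNat] using (p.un.map ((residue O).comp (p.φ.comp PowerSeries.C))).ne_zero) pp_prime
      (by simpa using (residue_eq_zero_iff _).2 ((mem_maximalIdeal _).2 u)) e
    rw [← isUnit_map_iff (residue O), Nt_r, r]
    refine Eq.mp (congrArg IsUnit ?_) u2
    show ((residue O).comp p.φ) _ = ((residue O).comp p.φ) _
    rw [RingHom.map_det, RingHom.map_det, map_sub, map_sub, map_sum]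
    simp only [map_pow, RingHom.mapMatrix_apply (f := (residue O).comp p.φ) (mm _), k]
    simp
  · have x1 : p.χ ⟨_, h⟩ * p.χ (⟨_, h⟩ : D.G)⁻¹ = 1 := by rw [← map_mul, mul_inv_cancel, map_one]
    have x2 : star (p.χ (⟨_, h⟩ : D.G)⁻¹) ^ pp = 1 := by
      rw [← star_pow, ← one_mul (_ ^ pp), ← e, ← mul_pow, e, x1, one_pow, star_one]
    rw [N_eq', E, Nt_l, p.hρ' ⟨_, h⟩, det_l]
    refine nz ((nm_pow x2 c one_lt).trans (Dvd.dvd.trans ?_ d))
    rw [← star_one (Qa a b C.R), ← star_sub, QuadraticAlgebra.norm_star, star_one]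
    exact map_dvd _ ⟨-p.χ ⟨_, h⟩, by linear_combination x1⟩
  · have : fromRows (p.fk.G.ρ (fun _ => p.pl.σ y) - 1) (p.fk.G.ρ (fun _ => p.pl.τ y) - 1) =
        (fromRows (p.ρ (p.pl.σ y) - 1) (p.ρ (p.pl.τ y) - 1)).map p.φ := by
      rw [ρ_eq, ρ_eq, fromRows_map]
      exact congrArg₂ _ ((map_sub p.φ.mapMatrix _ 1).trans (by rw [map_one]; rfl)).symm
        ((map_sub p.φ.mapMatrix _ 1).trans (by rw [map_one]; rfl)).symm
    rw [this, E, fromCols_mul_fromRows, zero_mul, zero_add, one_mul, r, det_one']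
    exact nz d

end Vale.Agent.P014X.Dv
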