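import Vale.Agent.P014X.Dv.Van
import Vale.Agent.P014X.Fm.Ind
import Vale.Agent.P014X.Pp.Lmx
import Vale.Agent.P014U.Pp.Lcb

/-! # P014X, block DVO: the row `GLK` -/

set_option autoImplicit false
set_option linter.all false

open NumberField Matrix Filter Set
open scoped Classical

noncomputable section

namespace Vale.Agent.P014X.Dv

open Vale.Agent.P022 (Qb GQ)
open Vale.Agent.P027M.S (Inert)
open Vale.Agent.P022E.GW (Ov Fb)
open Vale.Agent.P014U
open Vale.Agent.P014U.Dr (Zn)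
open Vale.Agent.P014U.Pp.Lcb (ec_hm)
open Vale.Agent.P014X.Fm.Ind (cases id_c xt_G cg_val c_inv)
open Va (nat_out)

namespace Gk

variable {A B : ℤ} {D : Cd A B}

/-- the conjugate place -/
def cP (D : Cd A B) (P : Ideal (𝓞 Qb)) : Ideal (𝓞 Qb) :=
  P.comap (MulSemiringAction.toRingHom GQ (𝓞 Qb) D.c)

theorem mem_cP {P : Ideal (𝓞 Qb)} {x : 𝓞 Qb} : x ∈ cP D P ↔ D.c • x ∈ P := Iff.rfl

theorem ov_cP {l : ℕ} {P : Ideal (𝓞 Qb)} (o : Ov l P) : Ov l (cP D P) :=
  have := o.2.1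
  ⟨o.1, Ideal.comap_isPrime _ _, by rw [cP, Ideal.mem_comap, map_natCast]; exact o.2.2⟩

theorem in_cP (F : D.Cf) {P : Ideal (𝓞 Qb)} {i : D.G} (h : Inert P i.1) :
    Inert (cP D P) (D.cg i).1 := fun x => by
  rw [mem_cP, smul_sub, cg_val F, smul_smul, ← mul_assoc, ← mul_assoc, F.c2, one_mul, mul_smul]
  exact h _

variable [Pp] {R : Type} [CommRing R] {N : ℕ} {χ : D.G →* R} {m : D.O}

theorem ad_ne {α : D.O} (h : D.Ad pp α m) : α * m ≠ 0 := by
  have : IsDomain D.O := D.inj.isDomain D.j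
  refine mul_ne_zero (fun e => ?_) h.ne
  have u : IsUnit (pp : D.O) := isUnit_of_dvd_unit
    ((dvd_pow_self _ two_ne_zero).trans (h.dv.mul_left 6)) (isCoprime_zero_left.1 (e ▸ h.cop))
  have v := u.map QuadraticAlgebra.norm
  rw [← map_natCast (algebraMap ℤ D.O), QuadraticAlgebra.norm_algebraMap, isUnit_pow_iff two_ne_zero,
    Int.isUnit_iff_natAbs_eq, Int.natAbs_natCast] at v
  exact Pp.prime.ne_one v

theorem pi_out (k : D.Kp N χ m) {l : ℕ} {P : Ideal (𝓞 Qb)} (o : Ov l P) (n : k.l ≠ l) :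
    D.j k.π ∉ P := fun a => nat_out o (fun d => n ((Nat.prime_dvd_prime_iff_eq o.1 k.ov.1).1 d).symm)
  (by rw [← map_natCast D.j, ← k.nm, map_mul]; exact P.mul_mem_right _ a)

/-- the classes vanish on the conjugate inertia group -/
theorem van (F : D.Cf) {ι : Zn N →+* R} {α : D.O} {κ : Finset (D.Kp N χ (α * m)) → D.G → R}
    (K : Cd.Ks ι m κ) {n : Finset (D.Kp N χ (α * m))} (i : Cd.Inj n) {k : D.Kp N χ (α * m)}
    (h : k ∈ n) : κ n (D.cg k.τ) = 0 := by
  have o := ov_cP (D := D) k.ov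
  refine K.unr n i _ _ _ o (in_cP F k.gn.1) (fun a => ?_) fun k' h' a => ?_
  · obtain ⟨x, y, e⟩ := k.cop.of_mul_right_right.map D.j
    rw [map_natCast] at e
    exact o.2.1.ne_top ((Ideal.eq_top_iff_one _).2
      (e ▸ add_mem (Ideal.mul_mem_left _ x o.2.2) (Ideal.mul_mem_left _ y a)))
  · by_cases e : k'.l = k.l
    · obtain rfl := i _ h' _ h e
      rw [mem_cP, F.cj _ ((F.cG _).2 (F.c2 ▸ one_mem _))] at a
      exact k'.bar a
    · exact pi_out k' o e a

end Gk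

open Gk

variable [Pp]

/-- **row GLK** -/
theorem glk (kfa : KFA) (idj : IDJ) (kpx : KPX) : GLK := by
  intro A B D k C a b O _ p j α m κ ad tr pf K
  obtain ⟨cj, id, -, un⟩ := idj A B D k C a b O p j
  obtain ⟨k1, -, k3, k4⟩ := kfa A B D p.cf a b _ _ _ un cj id
  have m0 : m ≠ 0 := fun e => ad.ne (by rw [e, Nat.cast_zero])
  have v : ∀ n, Cd.Inj n → ∀ x ∈ n,
      kf D (κ n) x.τ = κ n x.τ • ev a b _ := fun n i x h => by
    rw [kf, xt_G, Gk.van p.cf K i h, zero_smul, add_zero]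
  refine ⟨fun x => x.ov, fun x => x.fb, fun x => x.gn, fun x => x.md, fun h h1 _ h3 W T o => ?_,
    fun n i => k1 _ _ (K.co n i) fun l P g o hl t => ?_, fun n i x h => ?_, fun n x h i => ?_⟩
  · replace h1 : p.rj j p.ρ h = 1 := h1
    replace h3 : h ∈ Dr.Hm (pp ^ (p.t.N j + 2)) := h3
    obtain ⟨h, rfl⟩ | ⟨h, rfl⟩ := cases p.cf h
    · have e : p.Φj j h = 1 := by
        rw [id.G] at h1
        exact QuadraticAlgebra.ext (congrFun (congrFun h1 0) 0) (congrFun (congrFun h1 1) 0)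
      refine kpx A B D p.cf _ _ m _ _ h W T (ad_ne ad) ad.ne tr ?_ h3 o
      have z : p.Φj j h = p.ιj j (Pp.ec _ h.1) * p.χj j h := rfl
      rwa [z, ec_hm fun z c => h3 z (by rw [pow_add, pow_mul, c, one_pow]), map_one, one_mul] at e
    · rw [id_c id] at h1
      have e1 := congrFun (congrFun h1 0) 0
      have e2 := congrFun (congrFun h1 1) 1
      simp [mm, cm, Matrix.mul_apply, Fin.sum_univ_two] at e1 e2
      exact absurd (P014X.Pp.Lx.two_unit (p.t.f j)) (by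
        rw [show (2 : p.t.L j) = 0 by linear_combination -e1 - e2]; exact not_isUnit_zero)
  · have n1 : l ∉ Sb p.M := fun a => hl (Finset.mem_union_left _ (Finset.mem_union_left _ a))
    obtain ⟨φ, f⟩ : ∃ φ, Fb l P φ := P022D.W.exists_phi o.1 o.2.1 o.2.2
    have hg := (p.cf.spl l P φ o (fun d => n1 (p.fm.disc l o.1 d)) f).1 g t
    refine ⟨hg, K.unr n i l P ⟨g, hg⟩ o t ?_ fun x h => pi_out x o fun e =>
      hl (Finset.mem_union_right _ (Finset.mem_image.2 ⟨x, h, e⟩))⟩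
    rw [map_natCast]
    exact nat_out o fun d => n1 (pf (Nat.mem_primeFactors.2 ⟨o.1, d, m0⟩))
  · have : (rf a b (p.t.L j) - 1) *ᵥ kf D (κ n) x.τ = 0 := by
      rw [v n i x h, mulVec_smul, k3, smul_zero]
    exact this
  · have : kf D (κ (insert x n)) x.τ + kf D (κ (insert x n)) x.τ =
        (rf a b (p.t.L j) - 1).adjugate *ᵥ kf D (κ n) x.φ := by
      rw [v _ i x (Finset.mem_insert_self _ _), K.fs n x h i, kf, xt_G, k4, ← add_smul]
      exact congrArg (· • _) (by ring)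
    exact (two_nsmul _).trans this

end Vale.Agent.P014X.Dv
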