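import Vale.Agent.P014X.Dv.St
import Vale.Agent.P014X.Fm.Ind

/-! # P014X, block DVO: row KFA -/

set_option autoImplicit false
set_option linter.all false

open Matrix QuadraticAlgebra
open scoped Classical

noncomputable section

namespace Vale.Agent.P014X.Dv

open Vale.Agent.P022 (Qb GQ)
open Vale.Agent.P022K.G2 (In Hb.in_conj)
open Vale.Agent.P014U
open Vale.Agent.P014U.Kq (M2)
open Vale.Agent.P014U.Pq (Zq)
open Vale.Agent.P014T.Ct (db)
open Vale.Agent.P004F.Pr (ac)
open Vale.Agent.P014X.Fm.Ind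

namespace Kfa

variable {a b : ℤ} {R : Type} [CommRing R]

theorem ac_mm (x u v : Qa a b R) :
    ac (mm x) (u • ev a b R + v • ew a b R) = (x * u) • ev a b R + (star x * v) • ew a b R := by
  have h0 : ac (mm x) (![-star ω, 1] : Fin 2 → Qa a b R) = x • ![-star ω, 1] := by
    funext i
    fin_cases i <;> ext <;> simp [ac, mm, Fin.sum_univ_two] <;> ring
  have h1 : ac (mm x) (![ω, -1] : Fin 2 → Qa a b R) = star x • ![ω, -1] := by
    funext i
    fin_cases i <;> ext <;> simp [ac, mm, Fin.sum_univ_two] <;> ring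
  funext i
  have k0 := congrFun h0 i
  have k1 := congrFun h1 i
  simp only [ac, ev, ew, Fin.sum_univ_two, Pi.add_apply, Pi.smul_apply, smul_eq_mul] at k0 k1 ⊢
  simp only [Algebra.smul_def] at k0 k1 ⊢
  linear_combination u * Ring.inverse (dl a b R) * k0 + v * Ring.inverse (dl a b R) * k1

theorem ac_cm (u v : Qa a b R) :
    ac (cm b R) (u • ev a b R + v • ew a b R) = v • ev a b R + u • ew a b R := by
  have h0 : ac (cm b R) (![-star ω, 1] : Fin 2 → Qa a b R) = ![ω, -1] := by
    funext i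
    fin_cases i <;> ext <;> simp [ac, cm, Fin.sum_univ_two]
  have h1 : ac (cm b R) (![ω, -1] : Fin 2 → Qa a b R) = ![-star ω, 1] := by
    funext i
    fin_cases i <;> ext <;> simp [ac, cm, Fin.sum_univ_two]
  funext i
  have k0 := congrFun h0 i
  have k1 := congrFun h1 i
  simp only [ac, ev, ew, Fin.sum_univ_two, Pi.add_apply, Pi.smul_apply, smul_eq_mul] at k0 k1 ⊢
  simp only [Algebra.smul_def] at k0 k1 ⊢
  linear_combination u * Ring.inverse (dl a b R) * k0 + v * Ring.inverse (dl a b R) * k1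

theorem ac_mul (X Y : M2 R) (z : Fin 2 → Qa a b R) : ac (X * Y) z = ac X (ac Y z) := by
  funext i
  simp only [ac, mul_apply, Fin.sum_univ_two, add_smul, smul_add, mul_smul]
  abel

theorem inv_dl (h : IsUnit (b ^ 2 + 4 * a : R)) : Ring.inverse (dl a b R) * dl a b R = 1 := by
  refine Ring.inverse_mul_cancel _ (isUnit_iff_norm_isUnit.2 ?_)
  have : (dl a b R).norm = -(b ^ 2 + 4 * a : R) := by
    simp only [QuadraticAlgebra.norm_def, dl]
    ring
  rw [this]
  exact h.neg

theorem alg_vc (h : IsUnit (b ^ 2 + 4 * a : R)) (x : Qa a b R) (i : Fin 2) :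
    algebraMap R (Qa a b R) (vc x i) = x * ev a b R i + star x * ew a b R i := by
  have h0 : dl a b R * algebraMap R (Qa a b R) (vc x i) =
      x * (![-star ω, 1] : Fin 2 → Qa a b R) i + star x * (![ω, -1] : Fin 2 → Qa a b R) i := by
    fin_cases i <;> ext <;> simp [vc, dl] <;> ring
  simp only [ev, ew, Pi.smul_apply, smul_eq_mul]
  linear_combination Ring.inverse (dl a b R) * h0 - algebraMap R (Qa a b R) (vc x i) * inv_dl h

theorem star_dl : star (dl a b R) = -dl a b R := by
  ext <;> simp [dl]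
  ring

theorem rf_mul (h : IsUnit (b ^ 2 + 4 * a : R)) (u v : Qa a b R) :
    rf a b R *ᵥ (u • ev a b R + v • ew a b R) = u • ev a b R + (-v) • ew a b R := by
  have e : ∀ z : Fin 2 → Qa a b R, (mm (dl a b R)).map (algebraMap R _) *ᵥ z = ac (mm (dl a b R)) z :=
    fun z => funext fun i => by simp only [ac, mulVec, dotProduct, map_apply, Algebra.smul_def]
  rw [rf, smul_mulVec, e, ac_mm, star_dl, smul_add, smul_smul, smul_smul, ← mul_assoc, inv_dl h,
    one_mul, neg_mul, mul_neg, ← mul_assoc, inv_dl h, one_mul]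

theorem adj_rf : (rf a b R - 1).adjugate = -rf a b R - 1 := by
  have e : algebraMap R (Qa a b R) (-b + b * 2) = -algebraMap R (Qa a b R) (-b) := by
    rw [← map_neg]
    exact congrArg _ (by ring)
  have t : rf a b R 1 1 = -rf a b R 0 0 := by
    show _ * algebraMap R (Qa a b R) (-b + b * 2) = -(_ * algebraMap R (Qa a b R) (-b))
    rw [e, mul_neg]
  rw [adjugate_fin_two]
  ext1 i j
  fin_cases i <;> fin_cases j <;> simp [t]

theorem db_mm (x : Qa a b R) : (mm x - 1) *ᵥ ![1, 0] = vc (x - 1) := by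
  funext i
  fin_cases i <;> simp [mm, vc, mulVec, dotProduct, Fin.sum_univ_two]

theorem db_cm (x : Qa a b R) : (mm x * cm b R - 1) *ᵥ ![1, 0] = vc (x - 1) := by
  funext i
  fin_cases i <;> simp [mm, cm, vc, mulVec, dotProduct, Fin.sum_univ_two]

end Kfa

open Kfa

variable [Pp]

theorem kfa : KFA := fun A B D C a b R _ Φ ρ h j I => by
  refine ⟨fun y S c u => ?_, ?_, ?_, fun x y => ?_⟩
  · have z {g : D.G} (h : y g = 0) (h' : y (D.cg g) = 0) : kf D y g = 0 := by
      rw [kf, xt_G, h, h', zero_smul, zero_smul, add_zero]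
    have u' {g} (h : g ∈ In S) : ∃ h : g ∈ D.G, y ⟨g, h⟩ = 0 :=
      let ⟨l, n, P, o, t⟩ := h; u l P g o n t
    obtain ⟨W, o, w⟩ := c.lc
    obtain ⟨W', o', w'⟩ := lc_cg C o
    have y1 : y 1 = 0 := w 1 (one_mem W)
    refine ⟨?_, ⟨W', o', fun g h => ?_⟩, fun g h => ?_, ?_⟩
    · refine prods C (fun g h k => kf D y k = kf D y g + ac (ρ g) (kf D y h)) ?_ ?_ ?_ ?_ <;>
        intro g h <;>
        simp only [kf, xt_G, xt_c C, id_c I, I.G, c.coc, cg_mul C, cg_cg C, j g,
          ac_mul, ac_cm, ac_mm, add_smul] <;> abel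
    · obtain ⟨g, rfl, h1, h2⟩ := w' g h
      exact z (w _ h1) (w _ h2)
    · obtain ⟨k, e⟩ := u' h
      obtain ⟨k', e'⟩ := u' (Hb.in_conj h D.c)
      exact z (g := ⟨g, k⟩) e
        ((congrArg y (Subtype.ext ((cg_val C _).trans (congrArg _ (c_inv C).symm)))).trans e')
    · rw [← one_mul D.c]
      exact (xt_c C _ 1).trans ((xt_G _ 1).symm.trans (z y1
        ((congrArg y (Subtype.ext (by simp [cg_val C, C.c2]))).trans y1)))
  · rintro x x' y y' ⟨w, hw⟩
    have k : ∀ (g : D.G) i, x * (y g • ev a b R + y (D.cg g) • ew a b R) i =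
        x' * algebraMap R (Qa a b R) (vc (D.tc y' g) i) +
          w * algebraMap R (Qa a b R) (vc (Φ g - 1) i) := fun g i => by
      have h1 := hw g
      have h2 := hw (D.cg g)
      simp only [Pi.smul_apply, smul_eq_mul, tc_cg C, j g] at h1 h2
      simp only [alg_vc h, Pi.add_apply, Pi.smul_apply, smul_eq_mul, star_sub, star_one]
      linear_combination ev a b R i * h1 + ew a b R i * h2
    refine ⟨w, fun g i => ?_⟩
    obtain ⟨g, rfl⟩ | ⟨g, rfl⟩ := cases C g
    · rw [kf, xt_G, xt_G, db, I.G, db_mm]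
      exact k g i
    · rw [kf, xt_c C, xt_c C, db, id_c I, db_cm]
      exact k g i
  · have := rf_mul h 1 0
    rw [sub_mulVec, one_mulVec, sub_eq_zero]
    simpa using this
  · rw [adj_rf, sub_mulVec, neg_mulVec, one_mulVec, rf_mul h]
    module

end Vale.Agent.P014X.Dv
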