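import Vale.Agent.P014X.Dv.St
import Vale.Agent.P014X.Cm.Cg
import Vale.Agent.P014X.Fm.Ind
import Vale.Agent.P014X.Fm.Psi
import Vale.Agent.P014U.Pp.Van

/-! # P014X, block DVO: small facts (rows `RAM`, `IDJ`) -/

set_option autoImplicit false
set_option linter.all false

open NumberField Matrix IsLocalRing
open scoped Classical

noncomputable section

namespace Vale.Agent.P014X.Dv

open Vale.Agent.P022 (Qb GQ)
open Vale.Agent.P027M.S (Inert)
open Vale.Agent.P022E.GW (Ov Fb)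
open Vale.Agent.P014U
open Vale.Agent.P014U.Dr (Zn)
open Vale.Agent.P014U.Kq (M2)
open Vale.Agent.P014U.Pp (ec)
open Vale.Agent.P014U.X4S.Aq (cz)
open Vale.Agent.P004F.Pat (lm)
open Vale.Agent.P014T.Pp.Lv (lv)
open Fm.Ind Fm.Psi

theorem ram0 {A B : ℤ} (D : Cd A B) {l : ℕ} {P : Ideal (𝓞 Qb)} (o : Ov l P)
    (d : (l : ℤ) ∣ D.b ^ 2 + 4 * D.a) : ∃ i, Inert P i ∧ i ∉ D.G := by
  obtain ⟨K, _, _, j, e, b⟩ := D.brg
  obtain ⟨i, i1, i2⟩ := P022.H916.exists_inertia j b.iq.two (Cd.Cf.disc e ▸ d) o.2.1 o.2.2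
  exact ⟨i, i1, b.G ▸ i2⟩

theorem ram : RAM := fun _ _ D _ _ => ram0 D

namespace Kit

section

variable {a b : ℤ} {R S : Type} [CommRing R] [CommRing S] (f : R →+* S) (x : Qa a b R)

theorem det_mm : (mm x).det = x.norm := by
  simp only [mm, det_fin_two_of, QuadraticAlgebra.norm_def]
  ring

theorem mm_map : (mm x).map f = mm (qm a b f x) := by
  ext i j
  fin_cases i <;> fin_cases j <;> simp [mm, qm]

theorem cm_map : (cm b R).map f = cm b S := by
  ext i j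
  fin_cases i <;> fin_cases j <;> simp [cm]

theorem qm_smul (r : R) : qm a b f (r • x) = f r • qm a b f x :=
  QuadraticAlgebra.ext (f.map_mul _ _) (f.map_mul _ _)

theorem qm_alg (r : R) : qm a b f (algebraMap R _ r) = algebraMap S _ (f r) :=
  QuadraticAlgebra.ext rfl f.map_zero

theorem qm_norm : (qm a b f x).norm = f x.norm := by
  simp [QuadraticAlgebra.norm_def, qm]

theorem mm_smul (r : R) : mm (r • x) = r • mm x := by
  ext i j
  fin_cases i <;> fin_cases j <;> simp [mm] <;> ring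

theorem mm_sub (y : Qa a b R) : mm (x - y) = mm x - mm y := by
  ext i j
  fin_cases i <;> fin_cases j <;> simp [mm] <;> ring

theorem mm_alg (r : R) : mm (algebraMap R (Qa a b R) r) = r • 1 := by
  rw [Algebra.algebraMap_eq_smul_one, mm_smul, mm_one]

theorem mm_inj : Function.Injective (mm : Qa a b R → M2 R) := fun _ _ e =>
  QuadraticAlgebra.ext (congrFun (congrFun e 0) 0) (congrFun (congrFun e 1) 0)

theorem dl_sq : dl a b R * dl a b R = algebraMap R _ (b ^ 2 + 4 * a) :=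
  QuadraticAlgebra.ext (by simp [dl, -map_add]; ring) (by simp [dl, -map_add]; ring)

theorem star_alg (r : R) : star (algebraMap R (Qa a b R) r) = algebraMap R _ r :=
  QuadraticAlgebra.ext (by simp) (by simp)

theorem star_smul' (r : R) : star (r • x) = r • star x := by
  rw [Algebra.smul_def, Algebra.smul_def, star_mul', star_alg]

theorem star_dl : star (dl a b R) = -dl a b R :=
  QuadraticAlgebra.ext (by simp [dl]; ring) (by simp [dl])

theorem qm_dl : qm a b f (dl a b R) = dl a b S :=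
  QuadraticAlgebra.ext (by simp [dl, qm]) (map_ofNat f 2)

include f in
theorem un_map (u : IsUnit (b ^ 2 + 4 * a : R)) : IsUnit (b ^ 2 + 4 * a : S) := by
  simpa [map_ofNat] using u.map f

theorem dl_unit (u : IsUnit (b ^ 2 + 4 * a : R)) : IsUnit (dl a b R) :=
  isUnit_of_mul_isUnit_left (dl_sq (a := a) (b := b) (R := R) ▸ u.map _)

end

section

variable {A B : ℤ} {D : Cd A B} (C : D.Cf) {l : ℕ} {P : Ideal (𝓞 Qb)} {i : GQ} {m : D.O}

include C

/-- inertia acts through units on the points of order prime to `P` -/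
theorem in_ac (o : Ov l P) (t : Inert P i) (k : i ∈ D.G) :
    ∃ ζ, IsUnit ζ ∧ ∀ m ≠ 0, D.j m ∉ P → D.Ac m i ζ := by
  obtain ⟨π, p, h, -⟩ := C.bel l P o
  obtain ⟨ζ, u, z⟩ := C.mt π P 0 i ⟨p, o.2.1, h, k, fun x => by simpa using t x⟩
  have := D.dom
  have := D.pid
  refine ⟨ζ, u, fun m m0 n => ?_⟩
  simpa using z m m0 (p.irreducible.coprime_iff_not_dvd.2 fun ⟨x, e⟩ =>
    n (by rw [e, map_mul]; exact P.mul_mem_right _ h)).symm

theorem in_hm (o : Ov l P) (t : Inert P i) (k : i ∈ D.G) (m0 : m ≠ 0) (n : D.j m ∉ P) :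
    i ∈ D.Hm m :=
  let ⟨ζ, u, z⟩ := in_ac C o t k
  (C.hm m m0 i).2 ⟨ζ, u, z m m0 n⟩

theorem in_hm' {n : ℕ} (o : Ov l P) (t : Inert P i) (k : i ∈ D.G) (d : ¬ l ∣ n) : i ∈ D.Hm n :=
  in_hm C o t k (Cd.Cf.nc fun e => d (e ▸ dvd_zero l)) (map_natCast D.j n ▸ Cd.Cf.notMem o d)

omit C in
theorem not_disc (o : Ov l P) (h : ∀ i, Inert P i → i ∈ D.G) : ¬ (l : ℤ) ∣ D.b ^ 2 + 4 * D.a :=
  fun d => let ⟨i, t, n⟩ := ram0 D o d; n (h i t)

end

variable [Pp]

theorem cz_cg {A B : ℤ} {D : Cd A B} (C : D.Cf) (g : D.G) : cz (D.cg g) = cz g := by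
  rw [cg_val C, map_mul, map_mul, mul_right_comm, ← map_mul, C.c2, map_one, one_mul]

theorem i_ext {R : Type} [CommRing R] [IsLocalRing R] (t : Tl R) {x y : R}
    (h : ∀ j, t.i j x = t.i j y) : x = y := by rw [← t.id x, funext h, t.id]

theorem q_ext {R : Type} [CommRing R] [IsLocalRing R] (t : Tl R) {a b : ℤ} {x y : Qa a b R}
    (h : ∀ j, qm a b (t.i j) x = qm a b (t.i j) y) : x = y :=
  QuadraticAlgebra.ext (i_ext t fun j => congrArg (·.re) (h j))
    (i_ext t fun j => congrArg (·.im) (h j))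

theorem unit_i {R : Type} [CommRing R] [IsLocalRing R] (t : Tl R) (j : ℕ) {x : R} :
    IsUnit (t.i j x) ↔ IsUnit x :=
  have := IsLocalHom.of_surjective _ (t.sur j)
  isUnit_map_iff _ x

variable {A B : ℤ} {D : Cd A B} {k : ℕ} {C : Cr k} {a b : ℤ} {O : Type} [CommRing O]
  (p : Pe D C a b O)

theorem f_ec (t : Tl C.R) (j : ℕ) (g : GQ) : t.f j (ec (t.N j) g) = t.i j (cs C g) :=
  Pp.Vn.hom_eq (t.f j) ((t.i j).comp (algebraMap ℤ_[pp] C.R)) _

theorem lm_map {m n : Type} (X : Matrix m n C.R) :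
    lm p.fk.ψ (fun j => X.map (p.t.i j)) = X.map p.φ :=
  Matrix.ext fun u v => congrArg p.φ (p.t.id (X u v))

theorem psi_i (x : C.R) : p.fk.ψ (fun j => p.t.i j x) = p.φ x := congrArg p.φ (p.t.id x)

theorem psi_q (x : Qa a b C.R) : p.fk.ψ' (fun j => qm a b (p.t.i j) x) = p.φ' x := by
  show p.φ (p.t.lim fun j => p.t.i j x.re) + p.φ (p.t.lim fun j => p.t.i j x.im) * p.w = _
  rw [p.t.id, p.t.id]
  rfl

theorem phi_alg (x : C.R) : p.φ' (algebraMap _ _ x) = p.φ x := by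
  show p.φ x + p.φ 0 * p.w = _
  simp

theorem phi_norm (x : Qa a b C.R) : p.φ' x * p.φ' (star x) = p.φ x.norm := by
  rw [← map_mul, ← QuadraticAlgebra.algebraMap_norm_eq_mul_star, phi_alg]

theorem Φj_eq (j : ℕ) (g : D.G) : p.Φj j g = qm a b (p.t.i j) (cs C g • p.χ g) := by
  rw [qm_smul, ← f_ec, Algebra.smul_def]
  rfl

include p in
theorem unR : IsUnit (b ^ 2 + 4 * a : C.R) := un_map PowerSeries.C p.un

theorem cj_j (j : ℕ) : D.Cj (p.χj j) := fun g =>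
  (congrArg (qm a b _) (p.gf.cj g)).trans (qm_star _ _)

theorem L2_disc {χ : D.G →* Qa a b O} {l : ℕ} {P : Ideal (𝓞 Qb)} (o : Ov l P) (h : L2 D χ l) :
    ¬ (l : ℤ) ∣ D.b ^ 2 + 4 * D.a := not_disc o fun i t => (h P i o t).1

/-- the primes of `σ` are not ramified in the quadratic field -/
theorem σ_in (y : p.σ) (P : Ideal (𝓞 Qb)) (i : GQ) (o : Ov y P) (t : Inert P i) : i ∈ D.G :=
  ((p.gf.loc y (Finset.mem_filter.1 y.2).1).resolve_left (Finset.mem_filter.1 y.2).2).elim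
    (fun h => (h P i o t).1) fun h => (h.1 P i o t).1

theorem σ_disc (y : p.σ) {P : Ideal (𝓞 Qb)} (o : Ov y P) : ¬ ((y : ℕ) : ℤ) ∣ D.b ^ 2 + 4 * D.a :=
  not_disc o fun i => σ_in p y P i o

theorem σ_ne (y : p.σ) : (y : ℕ) ≠ pp := fun e =>
  p.fm.cop (e ▸ Nat.dvd_of_mem_primeFactors (Finset.mem_filter.1 y.2).1)

/-- inertia outside the bad primes -/
theorem off {l : ℕ} {P : Ideal (𝓞 Qb)} {i : GQ} (o : Ov l P) (n : l ∉ Sb p.M) (t : Inert P i) :
    ∃ h : i ∈ D.G, p.χ ⟨i, h⟩ = 1 := by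
  have h : i ∈ D.G := by_contra fun c => by
    obtain ⟨φ, f⟩ := P022D.W.exists_phi o.1 o.2.1 o.2.2
    exact c ((p.cf.spl l P φ o (fun d => n (p.fm.disc l o.1 d)) f).1 i t)
  refine ⟨h, q_ext p.t fun j => ?_⟩
  obtain ⟨m, z⟩ := p.gf.tr j
  rw [map_one]
  refine z ⟨i, h⟩ (in_hm' p.cf o t h fun d => n ?_)
  rw [Finset.mem_insert, Nat.mem_primeFactors]
  exact (o.1.dvd_mul.1 d).elim (fun d => .inr ⟨o.1, d, p.fm.ne⟩) fun d =>
    .inl ((Nat.prime_dvd_prime_iff_eq o.1 Fact.out).1 (o.1.dvd_of_dvd_pow d))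

end Kit

open Kit

variable [Pp]

theorem idj : IDJ := fun A B D k C a b O _ p j => by
  have i : D.Id (p.Φj j) (p.rj j p.ρ) :=
    ⟨fun g => by rw [Φj_eq, ← mm_map, ← p.hρ]; rfl,
      (congrArg (·.map (p.t.i j)) p.hc).trans (cm_map _)⟩
  refine ⟨fun g => ?_, i, fun ρ h => id_uniq p.cf h i, un_map (p.t.i j) (unR p)⟩
  rw [Φj_eq, Φj_eq, ← qm_star, cs, cz_cg p.cf, p.gf.cj, star_smul']

end Vale.Agent.P014X.Dv
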