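import Vale.Agent.P014X.Dv.St
import Vale.Agent.P014X.Fm.Ind
import Vale.Agent.P014U.Pp.Van
import Vale.Agent.P014U.Pp.Lcb
import Vale.Agent.P022K.Cheb.Main

/-! # P014X, block DVO: the data exist (row `PERT`) -/

set_option autoImplicit false
set_option linter.all false

open NumberField Matrix QuadraticAlgebra IsLocalRing
open scoped Classical

noncomputable section

namespace Vale.Agent.P014X.Dv

open Vale.Agent.P022 (Qb GQ)
open Vale.Agent.P022E.GW (Ov Fb)
open Vale.Agent.P014U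
open Vale.Agent.P014U.Kq (M2)
open Vale.Agent.P014U.X4S.Aq (cz)
open Vale.Agent.P014U.Pp (ec)
open Vale.Agent.P014U.Pp.Lcb (ec_eq ec_hm)
open Fm.Ind

variable [Pp]

namespace Pt

variable {A B : ℤ} {D : Cd A B} {k : ℕ} {C : Cr k} {a b : ℤ}

theorem cs_mul (g h : GQ) : cs C (g * h) = cs C g * cs C h := by
  simp only [cs, map_mul, Units.val_mul]

theorem cs_one : cs C 1 = 1 := by simp only [cs, map_one, Units.val_one]

theorem cs_lev (t : Tl C.R) (j : ℕ) (g : GQ) : t.i j (cs C g) = t.f j (ec (t.N j) g) :=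
  (P014U.Pp.Vn.hom_eq (t.f j) ((t.i j).comp (algebraMap _ _)) _).symm

theorem mm_map {R R' : Type} [CommRing R] [CommRing R'] (f : R →+* R') (x : Qa a b R) :
    (mm x).map f = mm (qm a b f x) := by
  ext i j
  fin_cases i <;> fin_cases j <;> simp [mm, qm]

theorem qm_star {R R' : Type} [CommRing R] [CommRing R'] (f : R →+* R') (x : Qa a b R) :
    qm a b f (star x) = star (qm a b f x) := QuadraticAlgebra.ext (by simp [qm]) (by simp [qm])

theorem qm_smul {R R' : Type} [CommRing R] [CommRing R'] (f : R →+* R') (r : R) (x : Qa a b R) :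
    qm a b f (r • x) = f r • qm a b f x := QuadraticAlgebra.ext (by simp [qm]) (by simp [qm])

/-- the character times the cyclotomic character -/
def fw (χ : D.G →* Qa a b C.R) : D.G →* Qa a b C.R where
  toFun g := cs C g • χ g
  map_one' := by rw [OneMemClass.coe_one, cs_one, map_one, one_smul]
  map_mul' g h := by rw [Subgroup.coe_mul, cs_mul, map_mul, smul_mul_smul_comm]

/-- the dual character -/
def bw {R : Type} [CommRing R] (χ : D.G →* Qa a b R) : D.G →* Qa a b R where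
  toFun g := star (χ g⁻¹)
  map_one' := by rw [inv_one, map_one, star_one]
  map_mul' g h := by rw [_root_.mul_inv_rev, map_mul, star_mul]

theorem cj_fw (F : D.Cf) {χ : D.G →* Qa a b C.R} (h : D.Cj χ) : D.Cj (fw χ) := fun g => by
  show cs C (D.cg g) • χ _ = star (cs C g • χ g)
  rw [h g, cg_val F, cs_mul, cs_mul, mul_right_comm, ← cs_mul, F.c2, cs_one, one_mul]
  exact QuadraticAlgebra.ext (by simp) (by simp)

theorem cg_inv (F : D.Cf) (g : D.G) : D.cg g⁻¹ = (D.cg g)⁻¹ := Subtype.ext <| by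
  simp only [cg_val F, Subgroup.coe_inv, _root_.mul_inv_rev, c_inv F, mul_assoc]

theorem cj_bw (F : D.Cf) {R : Type} [CommRing R] {χ : D.G →* Qa a b R} (h : D.Cj χ) :
    D.Cj (bw χ) := fun g => congrArg star ((congrArg χ (cg_inv F g).symm).trans (h _))

end Pt

open Pt

/-- **row PERT** -/
theorem pert : PERT := by
  intro A B D N M F cg rw fm k C a b t χ s gs un gf ga O _ _ _ φ w hw inj nu
  obtain ⟨ρ, i1⟩ := ex_id F (cj_fw F gf.cj)
  obtain ⟨ρ', i2⟩ := ex_id F (cj_bw F gf.cj)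
  obtain ⟨P, o, bad⟩ := gf.bad
  obtain ⟨g, g1, g2, g3⟩ := bad ((maximalIdeal O).comap φ) inferInstance fun e => by
    obtain ⟨x, x1, x2⟩ := nu
    exact (e.ge x1 : φ x ∈ maximalIdeal O) x2
  obtain ⟨pl⟩ := X4S.pl_ex
  have key : ∀ j, ∃ q Q φ, Ov q Q ∧ Fb q Q φ ∧ q ∉ Sb M ∧
      (ρ φ).map (t.i j) = (ρ g).map (t.i j) ∧ (ρ' φ).map (t.i j) = (ρ' g).map (t.i j) ∧
      (q : t.L j) = t.i j (cs C g) := fun j => by
    obtain ⟨n, tr⟩ := gf.tr j
    have m0 : D.mp M n ≠ 0 := fun e => mul_ne_zero fm.ne (pow_ne_zero n pp_ne)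
      (Nat.cast_eq_zero (R := ℤ).1 ((re_natCast _).symm.trans (congrArg re e)))
    have hV : IsOpen ((D.Hf (D.mp M n) ⊓ Dr.Hm (pp ^ t.N j) : Subgroup GQ) : Set GQ) :=
      (F.oH _ m0).inter (Dr.Hm_open (pow_ne_zero _ pp_ne))
    obtain ⟨l, f, hl, nl, ⟨Q, p1, p2, fb⟩, b1, b2⟩ := P022K.Cheb.exists_fr (g := g.1)
      (hV.preimage (continuous_const_mul g.1⁻¹)) (by simp [one_mem]) (Sb M)
    have o : Ov l Q := ⟨hl, p1, p2⟩
    obtain ⟨h, rfl⟩ : ∃ h : D.G, f = g * h := ⟨⟨_, b1.1⟩, (mul_inv_cancel_left _ _).symm⟩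
    simp only [inv_mul_cancel_left] at b1 b2
    have c1 : qm a b (t.i j) (χ h) = 1 :=
      tr h ((F.hm _ m0 _).2 ⟨1, isUnit_one, h.2, by rw [map_one]; exact b1.2⟩)
    have c2 : qm a b (t.i j) (χ h⁻¹) = 1 := by
      rw [← one_mul (qm _ _ _ _), ← c1, ← map_mul, ← map_mul, mul_inv_cancel, map_one, map_one, c1]
    have c3 : t.i j (cs C h) = 1 := by rw [cs_lev, ec_hm b2, map_one]
    refine ⟨l, Q, _, o, fb, nl, ?_, ?_, ?_⟩
    · rw [map_mul, Matrix.map_mul, i1.G h, mm_map, show fw χ h = cs C h • χ h from rfl, qm_smul, c1,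
        c3, one_smul, mm_one, mul_one]
    · rw [map_mul, Matrix.map_mul, i2.G h, mm_map, show bw χ h = star (χ h⁻¹) from rfl, qm_star, c2,
        star_one, mm_one, mul_one]
    · rw [← mul_one (t.i j _), ← c3, ← map_mul, ← cs_mul, cs_lev, ec_eq fun z =>
        Dr.root_cong o (Dr.nd_two o (fun e => nl (e ▸ Finset.mem_insert_self _ _)) _) fb, map_natCast]
  choose q Q f h1 h2 h3 h4 h5 h6 using key
  exact ⟨⟨N, M, s, gs, t, χ, φ, w, ρ, ρ', P, g, pl, q, Q, f, F, cg, rw, fm, un, gf, ga, hw, inj, nu,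
    i1.G, i1.c, i2.G, i2.c, o, g1, g2, not_not.1 g3, h1, h2, h3, h4, h5, h6⟩,
    rfl, rfl, rfl, rfl, rfl, rfl⟩

end Vale.Agent.P014X.Dv
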