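import Vale.Agent.P014X.Dv.Dvg
import Vale.Agent.P014X.Dv.Pert
import Vale.Agent.P014X.Dv.Kit
import Vale.Agent.P014X.Dv.Gl0
import Vale.Agent.P014X.Dv.Gl1
import Vale.Agent.P014X.Dv.Gla
import Vale.Agent.P014X.Dv.Glb
import Vale.Agent.P014X.Dv.Van
import Vale.Agent.P014X.Dv.Kfa
import Vale.Agent.P014X.Dv.Glk
import Vale.Agent.P014X.Dv.Eu1
import Vale.Agent.P014X.Dv.Eu2
import Vale.Agent.P014X.Es.Kol
import Vale.Agent.P014X.Es.Kpx
import Vale.Agent.P014X.Pp.All

/-! # P014X, block DVO: the divisibility at one point -/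

set_option autoImplicit false
set_option linter.all false

namespace Vale.Agent.P014X.Dv

open Vale.Agent.P014U

theorem dvo [Pp] : DVO :=
  dvg pert idj gl0 gl1 gla glb (van gl0) kfa (glk kfa idj kpx) (eu1 ram) eu2 kol Pp.dvp

end Vale.Agent.P014X.Dv
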