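import Vale.Agent.P014X.Dv.St

/-! # P014X, block DVO: the glue (helper54) -/

set_option autoImplicit false
set_option linter.all false

open NumberField Matrix Filter QuadraticAlgebra Set
open scoped Classical

noncomputable section

namespace Vale.Agent.P014X.Dv

open Vale.Agent.P022 (Qb GQ)
open Vale.Agent.P014U
open Vale.Agent.P014U.Dr (Zn)
open Vale.Agent.P014U.Kq (M2 F4 Gl)
open Vale.Agent.P004F.Pat (U lm)
open Vale.Agent.P014T.Pp.Lv (lv)
open Vale.Agent.P014T.Ct (Pr Cl db)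
open Vale.Agent.P014T.Ba (st cl st_map)
open Vale.Agent.P014X.Pp (Fk Sk DVP)

namespace Dg

section alg

variable {a b : ℤ} {R S O : Type} [CommRing R] [CommRing S] [CommRing O]

theorem qm_alg (f : R →+* S) (x : R) :
    qm a b f (algebraMap R _ x) = algebraMap S _ (f x) := QuadraticAlgebra.ext rfl f.map_zero

theorem qm_dl (f : R →+* S) : qm a b f (dl a b R) = dl a b S :=
  QuadraticAlgebra.ext (by simp [qm, dl]) (map_ofNat f 2)

end alg

variable [Pp]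

section alg

variable {a b : ℤ} {R S O : Type} [CommRing R] [CommRing S] [CommRing O]

theorem mm_inj (f : R →+* S) {x : Qa a b S} {y : Qa a b R} (h : (mm y).map f = mm x) :
    x = qm a b f y :=
  QuadraticAlgebra.ext (congrFun (congrFun h 0) 0).symm (congrFun (congrFun h 1) 0).symm

theorem qe_alg (φ : R →+* O) (w : O) (h : w * w = a + b * w) (x : R) :
    qe φ w h (algebraMap R (Qa a b R) x) = φ x := by
  show φ x + φ 0 * w = _
  simp

theorem qe_unit {φ : R →+* O} {w : O} (h : w * w = a + b * w) {x : Qa a b R}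
    (u : IsUnit (φ x.norm)) : IsUnit (qe φ w h x) := by
  rw [← qe_alg φ w h, algebraMap_norm_eq_mul_star, map_mul] at u
  exact isUnit_of_mul_isUnit_left u

theorem chain {A B : ℤ} {D : Cd A B} [Algebra R S] {Φ : D.G →* S} {κ zm zα zs y : D.G → S}
    {u c d : S} {s P P' : R} (h1 : D.Ch Φ κ (u • zm)) (h2 : D.Ch Φ (P' • zα) (P • zm))
    (h3 : D.Ch Φ y (d • zs)) (h4 : D.Ch Φ (c • zs) (s • zα)) :
    D.Ch Φ ((d * algebraMap R S (s * P)) • κ) ((algebraMap R S P' * u * c) • y) := by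
  obtain ⟨w1, h1⟩ := h1
  obtain ⟨w2, h2⟩ := h2
  obtain ⟨w3, h3⟩ := h3
  obtain ⟨w4, h4⟩ := h4
  refine ⟨d * algebraMap R S s * algebraMap R S P * w1 - d * algebraMap R S s * u * w2 -
    d * u * algebraMap R S P' * w4 - algebraMap R S P' * u * c * w3, fun g => ?_⟩
  have h1 := h1 g
  have h2 := h2 g
  have h3 := h3 g
  have h4 := h4 g
  simp only [Pi.smul_apply, smul_eq_mul, map_mul] at h1 h2 h3 h4 ⊢
  rw [Algebra.smul_def] at h4
  rw [Algebra.smul_def, Algebra.smul_def] at h2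
  linear_combination d * algebraMap R S s * algebraMap R S P * h1 -
    d * algebraMap R S s * u * h2 - d * u * algebraMap R S P' * h4 - algebraMap R S P' * u * c * h3

end alg

variable {A B : ℤ} {D : Cd A B} {k : ℕ} {C : Cr k} {a b : ℤ} {O : Type} [CommRing O]
  (p : Pe D C a b O)

/-- the multiplier of the bottom class -/
def a0 : Qa a b C.R := 2 * dl a b _ * algebraMap C.R _ (sf p.s p.χ p.gs * ∏ y : p.σ, p.P y)

/-- the multiplier of the class of the unit -/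
def b0 : Qa a b C.R := algebraMap C.R _ (∏ y : p.σ, p.P' y) * (cs C p.g • p.χ p.g - 1) *
  (algebraMap C.R _ (cs C p.g) - p.χ p.g⁻¹)

theorem lim (x : Qa a b C.R) : p.fk.ψ' (fun j => qm a b (p.t.i j) x) = p.φ' x := by
  show p.φ (p.t.lim fun j => p.t.i j x.re) + p.φ (p.t.lim fun j => p.t.i j x.im) * p.w = _
  rw [p.t.id, p.t.id]
  rfl

theorem a0_eq : p.φ' (a0 p) =
    p.φ' (2 * dl a b _) * p.φ (sf p.s p.χ p.gs) * ∏ y : p.σ, p.φ (p.P y) := by
  rw [a0, map_mul, qe_alg, map_mul p.φ, map_prod, mul_assoc]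

theorem b0_unit : IsUnit (p.φ' (b0 p)) := by
  have u := qe_unit p.hw (isUnit_of_mul_isUnit_right (map_mul p.φ _ _ ▸ p.ug))
  have e : algebraMap C.R (Qa a b C.R) (cs C p.g) - p.χ p.g⁻¹ =
      (cs C p.g • p.χ p.g - 1) * p.χ p.g⁻¹ := by
    rw [sub_mul, Algebra.smul_def, mul_assoc, ← map_mul, mul_inv_cancel, map_one, mul_one, one_mul]
  rw [b0, e, map_mul, map_mul, map_mul, qe_alg]
  refine (IsUnit.mul (IsUnit.map _ ?_) u).mul (u.mul ((Group.isUnit _).map p.χ |>.map _))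
  refine IsUnit.prod_univ_iff.2 fun y => ?_
  unfold Pe.P'
  split_ifs
  · have m := Nat.mem_primeFactors.1 (Finset.mem_filter.1 y.2).1
    have : IsUnit ((y : ℕ) : ℤ_[pp]) := by
      rw [PadicInt.isUnit_iff, PadicInt.norm_natCast_eq_one_iff,
        Nat.coprime_primes Fact.out m.1]
      intro z
      exact p.fm.cop (z ▸ m.2.1)
    simpa using (this.map (algebraMap ℤ_[pp] C.R)).pow 2
  · exact isUnit_one

/-- one level -/
theorem lev (idj : IDJ) (kfa : KFA) (glk : GLK) (eu1 : EU1) (eu2 : EU2) (kol : KOL) (j n : ℕ)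
    (h2 : 2 ≤ n) (tr : D.Tr (D.mp p.M n) (p.χj j)) :
    ∃ (α : D.O) (m : ℕ) (κ : Finset (D.Kp (p.t.N j) (p.χj j) (α * m)) → D.G → Qa a b (p.t.L j))
      (l : Qa a b (p.t.L j)), p.fk.Kv j (Pe.kp _ _) (fun n => kf D (κ n)) ∧ ∀ g i,
        qm a b (p.t.i j) (a0 p) * kf D (κ ∅) g i = qm a b (p.t.i j) (b0 p) *
          algebraMap _ _ (D.xz p.s (D.mp p.M n) (p.t.f j) (p.χj j) g i) +
          l * algebraMap _ _ (db (p.rj j p.ρ) ![1, 0] g i) := by
  obtain ⟨cj, id, -, un⟩ := idj A B D k C a b O p j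
  obtain ⟨m, pf, tm, h⟩ := eu1 A B D k C a b O p j n h2 tr
  obtain ⟨h3, α, ad, h4⟩ := eu2 A B D k C a b O p j n h2 tr
  obtain ⟨am, h⟩ := h α ad
  obtain ⟨κ, ks, h1⟩ := kol A B D p.cf p.rw _ α m _ (p.ιj j) (p.χj j) p.g am tm
  obtain ⟨l, e⟩ := (kfa A B D p.cf a b _ _ _ un cj id).2.1 _ _ _ _ (chain h1 h h3 h4)
  refine ⟨α, m, κ, l, glk A B D k C a b O p j α m κ am tm pf ks, fun g i => ?_⟩
  have z : p.Φj j p.g = qm a b (p.t.i j) (cs C p.g • p.χ p.g) :=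
    mm_inj _ (by rw [← p.hρ]; exact id.G p.g)
  have ea : qm a b (p.t.i j) (a0 p) = 2 * dl a b _ * algebraMap _ _
      (p.t.i j (sf p.s p.χ p.gs) * p.t.i j (∏ y : p.σ, p.P y)) := by
    rw [a0, map_mul, map_mul, qm_alg, qm_dl, map_ofNat, map_mul]
  have eb : qm a b (p.t.i j) (b0 p) = algebraMap _ _ (p.t.i j (∏ y : p.σ, p.P' y)) *
      (p.Φj j p.g - 1) * (algebraMap _ _ (p.t.i j (cs C p.g)) - p.χj j p.g⁻¹) := by
    rw [b0, map_mul, map_mul, qm_alg, map_sub, map_sub, qm_alg, map_one, z]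
    rfl
  rw [ea, eb]
  exact e g i

end Dg

open Dg in
theorem dvg [Pp] : DVG := by
  intro pert idj gl0 gl1 gla glb van kfa glk eu1 eu2 kol dvp A B D N M cf cg rw fm k C a b t χ s g
    r Q v w un gf ga pz O _ _ _ φ ω₀ hw inj nu E
  obtain ⟨p, rfl, rfl, rfl, rfl, rfl, rfl⟩ :=
    pert A B D N M cf cg rw fm k C a b t χ s g un gf ga O φ ω₀ hw inj nu
  have gy : ∀ y : p.σ, p.Gy y := fun y => by
    by_cases h : L2 D p.χ y
    · exact gla A B D k C a b O p y h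
    · exact glb A B D k C a b O p y h
  have H : ∀ j, ∃ (α : D.O) (m : ℕ)
      (κ : Finset (D.Kp (p.t.N j) (p.χj j) (α * m)) → D.G → Qa a b (p.t.L j))
      (l : Qa a b (p.t.L j)) (u : GQ → Matrix (Fin 2) (Fin (r + 2)) (p.t.L j))
      (x : GQ → Fin 2 → p.t.L j),
      (∃ (n : ℕ) (ρ : GQ →* M2 (p.t.L j)) (u : GQ → Matrix (Fin 2) (Fin (r + 2)) (p.t.L j)),
        2 ≤ n ∧ D.Tr (D.mp p.M n) (p.χj j) ∧ D.Id (D.aq (p.t.f j) (p.χj j)) ρ ∧
        Pr ρ (Sb p.M) D.c (Q j) u ∧ Cl (Q j) u (v j) (db ρ ![1, 0]) ∧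
        Cl (Q j) u (w j) (D.xz p.s (D.mp p.M n) (p.t.f j) (p.χj j))) →
      p.fk.Kv j (Pe.kp _ _) (fun n => kf D (κ n)) ∧ Pr (p.rj j p.ρ) (Sb p.M) D.c (Q j) u ∧
        Cl (Q j) u (v j) (db (p.rj j p.ρ) ![1, 0]) ∧ Cl (Q j) u (w j) x ∧ ∀ g i,
        qm a b (p.t.i j) (a0 p) * kf D (κ ∅) g i = qm a b (p.t.i j) (b0 p) *
          algebraMap _ _ (x g i) + l * algebraMap _ _ (db (p.rj j p.ρ) ![1, 0] g i) := by
    intro j
    by_cases h : ∃ (n : ℕ) (ρ : GQ →* M2 (p.t.L j))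
        (u : GQ → Matrix (Fin 2) (Fin (r + 2)) (p.t.L j)),
        2 ≤ n ∧ D.Tr (D.mp p.M n) (p.χj j) ∧ D.Id (D.aq (p.t.f j) (p.χj j)) ρ ∧
        Pr ρ (Sb p.M) D.c (Q j) u ∧ Cl (Q j) u (v j) (db ρ ![1, 0]) ∧
        Cl (Q j) u (w j) (D.xz p.s (D.mp p.M n) (p.t.f j) (p.χj j))
    · obtain ⟨n, ρ, u, h2, tr, id, pr, cv, cw⟩ := h
      obtain rfl := (idj A B D k C a b O p j).2.2.1 ρ id
      obtain ⟨α, m, κ, l, kv, e⟩ := lev p idj kfa glk eu1 eu2 kol j n h2 tr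
      exact ⟨α, m, κ, l, u, _, fun _ => ⟨kv, pr, cv, cw, e⟩⟩
    · exact ⟨0, 0, 0, 0, 0, 0, fun z => absurd z h⟩
  choose α m κ l u x H using H
  have H := Eventually.mono pz H
  obtain ⟨W, d, e⟩ := dvp O
    { toFk := p.fk, gs := gl0 A B D k C a b O p, g1 := gl1 A B D k C a b O p
      P := fun y : p.σ => p.φ (p.P y)
      g2 := ⟨fun y => (gy y).1, fun y => (gy y).2.1, fun y => (gy y).2.2.1, fun y => (gy y).2.2.2⟩
      g3 := van A B D k C a b O p
      Kq := fun j => D.Kp (p.t.N j) (p.χj j) (α j * m j), pl := fun j => Pe.kp _ _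
      κ := fun j n => kf D (κ j n), ks := H.mono fun j h => h.1 }
    (Sb p.M) r Q u v w x (fun j => qm a b (p.t.i j) (a0 p)) (fun j => qm a b (p.t.i j) (b0 p)) l
    (H.mono fun j h => ⟨Finset.subset_union_left, h.2⟩) (E.map p.φ)
  have e1 : p.φ (st finSumFinEquiv.symm (lm p.t.lim Q) E).det =
      (st finSumFinEquiv.symm (lm p.fk.ψ Q) (E.map p.φ)).det := by
    rw [RingHom.map_det, RingHom.mapMatrix_apply, st_map]
    rfl
  have e2 : p.φ (E * cl (lv p.t.lim v) (lv p.t.lim w)).det =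
      (E.map p.φ * cl (lv p.fk.ψ v) (lv p.fk.ψ w)).det := by
    rw [RingHom.map_det, RingHom.mapMatrix_apply, Matrix.map_mul]
    congr 2
    ext i j
    fin_cases j <;> rfl
  have e : p.φ' (a0 p) * W =
      p.φ' (b0 p) * (E.map p.φ * cl (lv p.fk.ψ v) (lv p.fk.ψ w)).det := by
    rw [← Dg.lim, ← Dg.lim]
    exact e
  rw [map_mul, e1, e2, ← (b0_unit p).dvd_mul_left, ← e, a0_eq, mul_assoc, mul_assoc]
  exact (mul_dvd_mul_left _ d).mul_left _

end Vale.Agent.P014X.Dv
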