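import Vale.Agent.P014X.St2

/-! # P014X, block DVO: the sequence at one point (words and rows) -/

set_option autoImplicit false
set_option linter.all false

open NumberField Matrix Filter QuadraticAlgebra Set
open scoped Classical

noncomputable section

namespace Vale.Agent.P014X.Dv

open Vale.Agent.P022 (Qb GQ)
open Vale.Agent.P027M.S (Inert)
open Vale.Agent.P022D.W (dec)
open Vale.Agent.P022E.GW (Ov Fb)
open Vale.Agent.P014U
open Vale.Agent.P014U.Dr (Zn)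
open Vale.Agent.P014U.Kq (M2 F4 Gl)
open Vale.Agent.P014U.Pq (Zq Ps)
open Vale.Agent.P014U.X4F (Nt)
open Vale.Agent.P014U.X4S (Pl)
open Vale.Agent.P014U.X4S.Aq (cz)
open Vale.Agent.P014U.Pp (Vn)
open Vale.Agent.P014T.Ct (db)
open Vale.Agent.P014X.Pp (Fk DVP)

variable [Pp]

section

variable (a b : ℤ) (R : Type) [CommRing R]

/-- the first eigenvector -/
def ev : Fin 2 → Qa a b R := Ring.inverse (dl a b R) • ![-star ω, 1]

/-- the second eigenvector -/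
def ew : Fin 2 → Qa a b R := Ring.inverse (dl a b R) • ![ω, -1]

/-- the reflection -/
def rf : M2 (Qa a b R) := Ring.inverse (dl a b R) • (mm (dl a b R)).map (algebraMap R _)

variable {a b R}

/-- the class over the rationals with values in the algebra -/
def kf {A B : ℤ} (D : Cd A B) (y : D.G → Qa a b R) : GQ → Fin 2 → Qa a b R :=
  D.xt fun g => y g • ev a b R + y (D.cg g) • ew a b R

/-- a point of the algebra -/
def qe {O : Type} [CommRing O] (φ : R →+* O) (w : O) (h : w * w = a + b * w) : Qa a b R →+* O where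
  toFun x := φ x.re + φ x.im * w
  map_one' := by simp
  map_zero' := by simp
  map_add' x y := by simp only [re_add, im_add, map_add]; ring
  map_mul' x y := by
    simp only [re_mul, im_mul, map_add, map_mul, map_intCast]
    linear_combination (-(φ x.im * φ y.im)) * h

/-- products -/
def qp {L : ℕ → Type} [∀ j, CommRing (L j)] : (∀ j, Qa a b (L j)) →+* Qa a b (∀ j, L j) where
  toFun x := ⟨fun j => (x j).re, fun j => (x j).im⟩
  map_one' := rfl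
  map_zero' := rfl
  map_add' _ _ := rfl
  map_mul' _ _ := rfl

/-- the first type of primes -/
def L1 {A B : ℤ} (D : Cd A B) (χ : D.G →* Qa a b R) (l : ℕ) : Prop :=
  ∃ P, ∃ i : D.G, Ov l P ∧ Inert P i.1 ∧ IsUnit (χ i - 1)

/-- the second type of primes -/
def L2 {A B : ℤ} (D : Cd A B) (χ : D.G →* Qa a b R) (l : ℕ) : Prop :=
  ∀ P i, Ov l P → Inert P i → ∃ h : i ∈ D.G, χ ⟨i, h⟩ = 1

end

/-- the structure map -/
abbrev cs {k : ℕ} (C : Cr k) (g : GQ) : C.R := algebraMap ℤ_[pp] C.R (cz g : ℤ_[pp])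

/-- **the data at one point** -/
structure Pe {A B : ℤ} (D : Cd A B) {k : ℕ} (C : Cr k) (a b : ℤ) (O : Type) [CommRing O] where
  N : ℕ
  M : ℕ
  s : ℕ
  gs : D.G
  t : Tl C.R
  χ : D.G →* Qa a b C.R
  φ : C.R →+* O
  w : O
  ρ : GQ →* M2 C.R
  ρ' : GQ →* M2 C.R
  P₂ : Ideal (𝓞 Qb)
  g : D.G
  pl : Pl
  q : ℕ → ℕ
  Q : ℕ → Ideal (𝓞 Qb)
  F : ℕ → GQ
  cf : D.Cf
  cg : D.Cg N
  rw : D.Rw
  fm : D.Fm N M
  un : IsUnit (b ^ 2 + 4 * a : C.O)
  gf : D.Gf t M χ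
  ga : D.Ga M s gs
  hw : w * w = a + b * w
  inj : Function.Injective φ
  nu : ∃ x, ¬ IsUnit x ∧ IsUnit (φ x)
  hρ : ∀ g : D.G, ρ g = mm (cs C g • χ g)
  hc : ρ D.c = cm b _
  hρ' : ∀ g : D.G, ρ' g = mm (star (χ g⁻¹))
  hc' : ρ' D.c = cm b _
  ov : Ov pp P₂
  dc : g.1 ∈ dec P₂
  rs : D.Rs χ g
  ug : IsUnit (φ (D.nn χ g))
  oq : ∀ j, Ov (q j) (Q j)
  fq : ∀ j, Fb (q j) (Q j) (F j)
  nq : ∀ j, q j ∉ Sb M
  e1 : ∀ j, (ρ (F j)).map (t.i j) = (ρ g).map (t.i j)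
  e2 : ∀ j, (ρ' (F j)).map (t.i j) = (ρ' g).map (t.i j)
  e3 : ∀ j, (q j : t.L j) = t.i j (cs C g)

namespace Pe

variable {A B : ℤ} {D : Cd A B} {k : ℕ} {C : Cr k} {a b : ℤ} {O : Type} [CommRing O]
  (p : Pe D C a b O)

/-- the tame places -/
def σ : Finset ℕ := p.M.primeFactors.filter fun l => ¬ L1 D p.χ l

/-- the character at level `j` -/
abbrev χj (j : ℕ) : D.G →* Qa a b (p.t.L j) := qc (p.t.i j) p.χ

/-- the structure map at level `j` -/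
abbrev ιj (j : ℕ) : Zn (p.t.N j) →+* Qa a b (p.t.L j) := (algebraMap _ _).comp (p.t.f j)

/-- the action at level `j` -/
abbrev Φj (j : ℕ) : D.G →* Qa a b (p.t.L j) := D.ak (p.ιj j) (p.χj j)

/-- a representation at level `j` -/
abbrev rj (j : ℕ) (r : GQ →* M2 C.R) : GQ →* M2 (p.t.L j) := (p.t.i j).mapMatrix.toMonoidHom.comp r

/-- one side -/
def gl (j : ℕ) (r : GQ →* M2 C.R) : Gl (p.t.L j) GQ p.σ :=
  ⟨p.rj j r, ![1, 0], fun y => Nt (p.rj j r (p.pl.σ y)) (p.rj j r (p.pl.τ y)) y⟩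

/-- the point -/
abbrev φ' : Qa a b C.R →+* O := qe p.φ p.w p.hw

/-- the frame -/
def fk : Fk O :=
  { R := p.t.L, B := fun j => Qa a b (p.t.L j), ψ := p.φ.comp p.t.lim
    ψ' := (qe (p.φ.comp p.t.lim) p.w p.hw).comp qp
    ae := fun x y h => congrArg p.φ (p.t.ae x y h)
    ae' := fun x y h => by
      show p.φ (p.t.lim fun j => (x j).re) + p.φ (p.t.lim fun j => (x j).im) * p.w =
        p.φ (p.t.lim fun j => (y j).re) + p.φ (p.t.lim fun j => (y j).im) * p.w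
      rw [p.t.ae (fun j => (x j).re) (fun j => (y j).re) (h.mono fun _ e => congrArg re e),
        p.t.ae (fun j => (x j).im) (fun j => (y j).im) (h.mono fun _ e => congrArg im e)]
    hψ := fun x => by
      show _ = p.φ (p.t.lim x) + p.φ (p.t.lim 0) * p.w
      simp
    π := p.t.π, N := p.t.N, f := p.t.f, σ := p.σ
    γ := fun j => p.gl j p.ρ, γ' := fun j => p.gl j p.ρ'
    q := fun _ => ⟨Subtype.val, fun y => p.pl.P y, fun y => p.pl.σ y, fun y => p.pl.τ y⟩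
    S₀ := Sb p.M, T := fun j => {p.q j}, c := D.c, P₂ := p.P₂, K := D.G
    A := fun j => rf a b _, A' := fun j => -rf a b _ }

/-- the local factors -/
def P (l : ℕ) : C.R := if L2 D p.χ l then (p.ρ (p.pl.σ l) - (l : M2 C.R)).det else 1

/-- their denominators -/
def P' (l : ℕ) : C.R := if L2 D p.χ l then (l : C.R) ^ 2 else 1

/-- the conditions at one tame place -/
def Gy (y : p.σ) : Prop := p.φ (p.P y) ≠ 0 ∧
  p.φ (p.P y) ∈ Ideal.span (range fun E : Matrix F4 (Fin 2) O => (p.fk.G.N y * E).det) ∧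
  (∃ E : Matrix F4 (Fin 2) O, (p.fk.G'.N y * E).det ≠ 0) ∧
  ∃ E : Matrix (Fin 2) F4 O, (E * fromRows (p.fk.G.ρ (fun _ => p.pl.σ y) - 1)
    (p.fk.G.ρ (fun _ => p.pl.τ y) - 1)).det ≠ 0

/-- the places of the Kolyvagin primes -/
def kp {R : Type} [CommRing R] {N : ℕ} (χ : D.G →* R) (m : D.O) : Ps (D.Kp N χ m) :=
  ⟨fun x => x.l, fun x => x.P, fun x => x.φ.1, fun x => x.τ.1⟩

end Pe

/-! ## rows -/

/-- ramified primes -/
def RAM : Prop := ∀ A B (D : Cd A B) l P, Ov l P → (l : ℤ) ∣ D.b ^ 2 + 4 * D.a →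
  ∃ i, Inert P i ∧ i ∉ D.G

/-- the data exist -/
def PERT : Prop := ∀ A B (D : Cd A B) N M, D.Cf → D.Cg N → D.Rw → D.Fm N M →
  ∀ k (C : Cr k) (a b : ℤ) (t : Tl C.R) (χ : D.G →* Qa a b C.R) s g,
    IsUnit (b ^ 2 + 4 * a : C.O) → D.Gf t M χ → D.Ga M s g →
    ∀ (O : Type) [CommRing O] [IsDomain O] [IsDiscreteValuationRing O] (φ : C.R →+* O) (w : O),
      w * w = a + b * w → Function.Injective φ → (∃ x, ¬ IsUnit x ∧ IsUnit (φ x)) →
      ∃ p : Pe D C a b O, p.M = M ∧ p.s = s ∧ p.gs = g ∧ p.t = t ∧ p.χ = χ ∧ p.φ = φ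

/-- the levels are induced -/
def IDJ : Prop := ∀ A B (D : Cd A B) k (C : Cr k) a b (O : Type) [CommRing O] (p : Pe D C a b O) j,
  D.Cj (p.Φj j) ∧ D.Id (p.Φj j) (p.rj j p.ρ) ∧ (∀ ρ, D.Id (p.Φj j) ρ → ρ = p.rj j p.ρ) ∧
    IsUnit (b ^ 2 + 4 * a : p.t.L j)

def GL0 : Prop := ∀ A B (D : Cd A B) k (C : Cr k) a b (O : Type) [CommRing O] (p : Pe D C a b O),
  p.fk.Gs

def GL1 : Prop := ∀ A B (D : Cd A B) k (C : Cr k) a b (O : Type) [CommRing O] (p : Pe D C a b O),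
  p.fk.G1

def GLA : Prop := ∀ A B (D : Cd A B) k (C : Cr k) a b (O : Type) [CommRing O] [IsDomain O]
  (p : Pe D C a b O) (y : p.σ), L2 D p.χ y → p.Gy y

def GLB : Prop := ∀ A B (D : Cd A B) k (C : Cr k) a b (O : Type) [CommRing O] [IsDomain O]
  [IsDiscreteValuationRing O] (p : Pe D C a b O) (y : p.σ), ¬ L2 D p.χ y → p.Gy y

def VAN : Prop := ∀ A B (D : Cd A B) k (C : Cr k) a b (O : Type) [CommRing O] (p : Pe D C a b O),
  p.fk.G3

/-- the algebra of the classes -/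
def KFA : Prop := ∀ A B (D : Cd A B), D.Cf → ∀ (a b : ℤ) (R : Type) [CommRing R]
  (Φ : D.G →* Qa a b R) ρ, IsUnit (b ^ 2 + 4 * a : R) → D.Cj Φ → D.Id Φ ρ →
  (∀ y (S : Finset ℕ), D.Co Φ y →
    (∀ l P i, Ov l P → l ∉ S → Inert P i → ∃ h : i ∈ D.G, y ⟨i, h⟩ = 0) →
    kf D y ∈ Zq (Qa a b R) S ρ D.c) ∧
  (∀ (x x' : Qa a b R) y y', D.Ch Φ (x • y) (x' • D.tc y') → ∃ l, ∀ g i, x * kf D y g i =
    x' * algebraMap R (Qa a b R) (D.xt (fun g => vc (D.tc y' g)) g i) +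
      l * algebraMap R (Qa a b R) (db ρ ![1, 0] g i)) ∧
  (rf a b R - 1) *ᵥ ev a b R = 0 ∧
  ∀ x y : Qa a b R, (rf a b R - 1).adjugate *ᵥ (x • ev a b R + y • ew a b R) = (-2 * x) • ev a b R

/-- the Kolyvagin classes -/
def GLK : Prop := ∀ A B (D : Cd A B) k (C : Cr k) a b (O : Type) [CommRing O] (p : Pe D C a b O) j
  (α : D.O) (m : ℕ) (κ : Finset (D.Kp (p.t.N j) (p.χj j) (α * m)) → D.G → Qa a b (p.t.L j)),
  D.Ad pp α m → D.Tr m (p.χj j) → m.primeFactors ⊆ Sb p.M → Cd.Ks (p.ιj j) m κ →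
  p.fk.Kv j (Pe.kp _ _) fun n => kf D (κ n)

/-- the primitive conductor -/
def EU1 : Prop := ∀ A B (D : Cd A B) k (C : Cr k) a b (O : Type) [CommRing O] (p : Pe D C a b O)
  j n, 2 ≤ n → D.Tr (D.mp p.M n) (p.χj j) → ∃ m : ℕ, m.primeFactors ⊆ Sb p.M ∧ D.Tr m (p.χj j) ∧
    ∀ α, D.Ad pp α (D.mp p.M n) → D.Ad pp α m ∧ D.Ch (p.Φj j)
      (p.t.i j (∏ y : p.σ, p.P' y) • D.zc α (D.mp p.M n) (p.ιj j) (p.χj j))
      (p.t.i j (∏ y : p.σ, p.P y) • D.zc α m (p.ιj j) (p.χj j))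

/-- the smoothing and the conjugation -/
def EU2 : Prop := ∀ A B (D : Cd A B) k (C : Cr k) a b (O : Type) [CommRing O] (p : Pe D C a b O)
  j n, 2 ≤ n → D.Tr (D.mp p.M n) (p.χj j) →
    D.Ch (p.Φj j) (D.tc fun g => dl a b _ * D.zc p.s (D.mp p.M n) (p.ιj j) (p.χj j) g)
      ((2 * dl a b (p.t.L j)) • D.zc p.s (D.mp p.M n) (p.ιj j) (p.χj j)) ∧
    ∃ α, D.Ad pp α (D.mp p.M n) ∧ D.Ch (p.Φj j)
      ((algebraMap _ _ (p.t.i j (cs C p.g)) - p.χj j p.g⁻¹) •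
        D.zc p.s (D.mp p.M n) (p.ιj j) (p.χj j))
      (p.t.i j (sf p.s p.χ p.gs) • D.zc α (D.mp p.M n) (p.ιj j) (p.χj j))

/-- the glue -/
def DVG : Prop := PERT → IDJ → GL0 → GL1 → GLA → GLB → VAN → KFA → GLK → EU1 → EU2 → KOL → DVP → DVO

end Vale.Agent.P014X.Dv
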